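import Vale.Agent.P137.Core.Defs
import Vale.Agent.P137.Triple
import Vale.Agent.P137.Passage.Truncation

/-!
P137: the core bound from the bound for the layers of small balls.
-/

open MeasureTheory Metric Set Filter
open scoped ENNReal Topology

noncomputable section

namespace Vale.Agent.P137

variable {d : ℕ}

lemma enorm_eq_pos_add_neg (x : ℝ) : ‖x‖ₑ = ENNReal.ofReal x + ENNReal.ofReal (-x) := by
  rw [← ofReal_norm, Real.norm_eq_abs]
  rcases le_total 0 x with h | h
  · rw [abs_of_nonneg h, ENNReal.ofReal_of_nonpos (neg_nonpos.2 h), add_zero]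
  · rw [abs_of_nonpos h, ENNReal.ofReal_of_nonpos h, zero_add]

lemma measurable_rangeMax_all {f : X d → ℝ} (hf : CoreFun f) (n : ℕ) :
    Measurable (rangeMax n f) := by
  have hm : Measurable f := hf.1.continuous.measurable
  rcases Nat.eq_zero_or_pos n with rfl | hn
  · have : rangeMax 0 f = fun x => max (f x) 0 := by
      funext x
      have he : balls 0 x = ∅ := by
        refine Set.eq_empty_of_forall_notMem fun B hB => ?_
        have h1 := hB.2.1
        have h2 := hB.2.2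
        norm_num at h1 h2
        linarith
      rw [rangeMax_eq, he, Set.image_empty, Real.sSup_empty]
    rw [this]
    exact hm.max measurable_const
  · exact measurable_rangeMax hn hf.2.1 hm

lemma measurableSet_layer_pairs {f : X d → ℝ} (hf : CoreFun f) (n : ℕ) (j : ℤ) (w : X d) :
    MeasurableSet {q : X d × ℝ | q.1 ∈ layerSet n j f w q.2} := by
  have hc := hf.1.continuous
  have hsuper : IsOpen {q : X d × ℝ | q.1 ∈ superSet n f q.2} := by
    refine isOpen_iff_mem_nhds.2 fun q hq => ?_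
    obtain ⟨B, h1, h2, h3⟩ := hq
    filter_upwards [prod_mem_nhds (isOpen_ball.mem_nhds h3) (Iio_mem_nhds h2)] with q' hq'
    exact ⟨B, h1, hq'.2, hq'.1⟩
  have hsmall : IsOpen {q : X d × ℝ | q.1 ∈ smallSet n j f q.2} := by
    refine isOpen_iff_mem_nhds.2 fun q hq => ?_
    obtain ⟨B, h1, h2, h3, h4⟩ := hq
    filter_upwards [prod_mem_nhds (isOpen_ball.mem_nhds h4) (Iio_mem_nhds h3)] with q' hq'
    exact ⟨B, h1, h2, hq'.2, hq'.1⟩
  exact (measurableSet_le (hc.measurable.comp measurable_fst) measurable_snd).inter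
    (hsuper.measurableSet.compl.inter ((hsmall.preimage
      (by fun_prop : Continuous fun q : X d × ℝ => (q.1 + w, q.2))).measurableSet))

/-- Averages over translated balls. -/
lemma avg_sub_shift_le {f : X d → ℝ} (hf : CoreFun f) (w : X d) (j : ℤ) {B : X d × ℝ}
    (hB : (2:ℝ) ^ j ≤ B.2) :
    avg f B - avg f (B.1 - w, B.2) ≤ ((volume (ball (0 : X d) ((2:ℝ) ^ j))).toReal)⁻¹ *
      (‖w‖ * (∫⁻ x, ‖fderiv ℝ f x‖ₑ).toReal) := by
  have hj : (0:ℝ) < (2:ℝ) ^ j := zpow_pos (by norm_num) _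
  have hint := hf.2.1
  have hshift : Integrable fun y => f (y - w) := hint.comp_sub_right w
  have e1 : ∫ y in ball (B.1 - w) B.2, f y = ∫ y in ball B.1 B.2, f (y - w) := by
    rw [← integral_indicator measurableSet_ball, ← integral_indicator measurableSet_ball,
      ← integral_sub_right_eq_self ((ball (B.1 - w) B.2).indicator f) w]
    refine integral_congr_ae (Eventually.of_forall fun y => ?_)
    dsimp only
    by_cases hy : y ∈ ball B.1 B.2
    · rw [indicator_of_mem hy, indicator_of_mem]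
      simpa [mem_ball, dist_eq_norm] using hy
    · rw [indicator_of_notMem hy, indicator_of_notMem]
      simpa [mem_ball, dist_eq_norm] using hy
  have e2 : (volume (ball (B.1 - w) B.2)).toReal = (volume (ball B.1 B.2)).toReal := by
    rw [Measure.addHaar_ball_center volume (B.1 - w), Measure.addHaar_ball_center volume B.1]
  simp only [avg]
  rw [e1, e2, ← mul_sub, ← integral_sub hint.integrableOn hshift.integrableOn]
  refine le_trans (le_abs_self _) ?_
  rw [abs_mul, abs_of_nonneg (inv_nonneg.2 ENNReal.toReal_nonneg)]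
  refine mul_le_mul ?_ ?_ (abs_nonneg _) (inv_nonneg.2 ENNReal.toReal_nonneg)
  · rw [Measure.addHaar_ball_center volume B.1]
    exact inv_anti₀ (ENNReal.toReal_pos (measure_ball_pos volume _ hj).ne'
      measure_ball_lt_top.ne) (ENNReal.toReal_mono measure_ball_lt_top.ne
      (measure_mono (ball_subset_ball hB)))
  · refine le_trans abs_integral_le_integral_abs ?_
    have hg : Integrable fun y => f y - f (y - w) := hint.sub hshift
    refine le_trans (setIntegral_le_integral hg.abs (Eventually.of_forall fun y => abs_nonneg _)) ?_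
    have hle : ENNReal.ofReal (∫ y, |f y - f (y - w)|) ≤
        ENNReal.ofReal (‖w‖ * (∫⁻ x, ‖fderiv ℝ f x‖ₑ).toReal) := by
      rw [ENNReal.ofReal_mul (norm_nonneg _), ENNReal.ofReal_toReal hf.2.2.2.ne, ofReal_norm]
      refine le_trans (le_of_eq ?_) (lintegral_translate_le hf.1 w)
      rw [← lintegral_sub_right_eq_self (fun x => ‖f (x + w) - f x‖ₑ) w]
      simp only [sub_add_cancel]
      rw [← ofReal_integral_norm_eq_lintegral_enorm hg]
      simp [Real.norm_eq_abs]
    exact (ENNReal.ofReal_le_ofReal_iff (by positivity)).1 hle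

/-- One step, one side, pointwise. -/
lemma step_pointwise {f : X d → ℝ} (hf : CoreFun f) (n : ℕ) (j : ℤ) (w : X d) {Z : ℝ}
    (hZ0 : 0 ≤ Z) (hZ : ∀ B : X d × ℝ, InRange n B → (2:ℝ) ^ j ≤ B.2 →
      avg f B - avg f (B.1 - w, B.2) ≤ Z) (z : X d) :
    ENNReal.ofReal (rangeMax n f (z + w) - rangeMax n f z) ≤
      ‖f (z + w) - f z‖ₑ + ENNReal.ofReal Z + volume {lam | z ∈ layerSet n j f w lam} := by
  set a := rangeMax n f z with ha
  set b := rangeMax n f (z + w) with hb
  set L := max (f (z + w)) (a + Z) with hL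
  have ha0 : 0 ≤ a := le_trans (hf.2.2.1 z) (le_max_left _ _)
  have hsub : Ioo L b ⊆ {lam | z ∈ layerSet n j f w lam} := by
    intro lam hlam
    have h1 : f (z + w) < lam := lt_of_le_of_lt (le_max_left _ _) hlam.1
    have h2 : a + Z < lam := lt_of_le_of_lt (le_max_right _ _) hlam.1
    have h3 : ∀ B : X d × ℝ, InRange n B → z ∈ ball B.1 B.2 → avg f B ≤ a := fun B hB hz =>
      le_trans (le_csSup (avg_bddAbove hf.2.1 z)
        (mem_image_of_mem (avg f) (show B ∈ balls n z from ⟨hz, hB.1, hB.2⟩))) (le_max_right _ _)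
    have hfz : f z ≤ a := le_max_left _ _
    refine ⟨by linarith, ?_, ?_⟩
    · rintro ⟨B, hB, hlt, hz⟩
      linarith [h3 B hB hz]
    · have hlb : lam < sSup ((avg f) '' balls n (z + w)) := by
        have := hlam.2
        rw [hb, rangeMax_eq, lt_max_iff] at this
        exact this.resolve_left (not_lt.2 h1.le)
      have hne : ((avg f) '' balls n (z + w)).Nonempty := by
        by_contra he
        rw [Set.not_nonempty_iff_eq_empty.1 he, Real.sSup_empty] at hlb
        linarith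
      obtain ⟨_, ⟨B, hB, rfl⟩, hlt⟩ := exists_lt_of_lt_csSup hne hlb
      refine ⟨B, ⟨hB.2.1, hB.2.2⟩, ?_, hlt, hB.1⟩
      by_contra hr
      have h4 := hZ B ⟨hB.2.1, hB.2.2⟩ (not_lt.1 hr)
      have hmem : z ∈ ball (B.1 - w) B.2 := by
        have := hB.1
        simp only [mem_ball, dist_eq_norm] at this ⊢
        rwa [sub_sub_eq_add_sub]
      linarith [h3 (B.1 - w, B.2) ⟨hB.2.1, hB.2.2⟩ hmem]
  have hvol : ENNReal.ofReal (b - L) ≤ volume {lam | z ∈ layerSet n j f w lam} := by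
    rw [← Real.volume_Ioo]
    exact measure_mono hsub
  have hLa : L - a ≤ |f (z + w) - f z| + Z := by
    have hfz : f z ≤ a := le_max_left _ _
    rcases le_total (f (z + w)) (a + Z) with h | h
    · rw [hL, max_eq_right h]; linarith [abs_nonneg (f (z + w) - f z)]
    · rw [hL, max_eq_left h]; linarith [le_abs_self (f (z + w) - f z)]
  rw [← ofReal_norm, Real.norm_eq_abs, ← ENNReal.ofReal_add (abs_nonneg _) hZ0]
  refine le_trans (ENNReal.ofReal_le_ofReal (?_ : b - a ≤ (|f (z + w) - f z| + Z) + max (b - L) 0))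
    ?_
  · linarith [le_max_left (b - L) 0]
  rw [ENNReal.ofReal_add (add_nonneg (abs_nonneg _) hZ0) (le_max_right _ _), ENNReal.ofReal_max,
    ENNReal.ofReal_zero, max_eq_left zero_le]
  exact add_le_add le_rfl hvol

/-- The gradient bound for translations on a set. -/
lemma setLIntegral_translate_le {f : X d → ℝ} (hf : CoreFun f) {O : Set (X d)}
    (hO : MeasurableSet O) (w : X d) {r : ℝ} (hr : ‖w‖ < r) :
    ∫⁻ x in O, ‖f (x + w) - f x‖ₑ ≤
      ENNReal.ofReal ‖w‖ * ∫⁻ x in thickening r O, ‖fderiv ℝ f x‖ₑ := by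
  have hDc : Continuous (fderiv ℝ f) := hf.1.continuous_fderiv one_ne_zero
  calc ∫⁻ x in O, ‖f (x + w) - f x‖ₑ
      ≤ ∫⁻ x in O, ∫⁻ t in Ioc (0:ℝ) 1, ENNReal.ofReal ‖w‖ * ‖fderiv ℝ f (x + t • w)‖ₑ := by
        refine lintegral_mono fun x => le_trans (enorm_shift_le hf.1 x w) (lintegral_mono fun t => ?_)
        rw [mul_comm, ofReal_norm]
        exact ContinuousLinearMap.le_opENorm _ _
    _ = ∫⁻ t in Ioc (0:ℝ) 1, ∫⁻ x in O, ENNReal.ofReal ‖w‖ * ‖fderiv ℝ f (x + t • w)‖ₑ :=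
        lintegral_lintegral_swap (Measurable.aemeasurable ((((hDc.comp (by fun_prop :
          Continuous fun p : X d × ℝ => p.1 + p.2 • w)).measurable.enorm)).const_mul _))
    _ ≤ ∫⁻ _t in Ioc (0:ℝ) 1, ENNReal.ofReal ‖w‖ * ∫⁻ x in thickening r O, ‖fderiv ℝ f x‖ₑ := by
        refine setLIntegral_mono measurable_const fun t ht => ?_
        rw [lintegral_const_mul' _ _ ENNReal.ofReal_ne_top]
        refine mul_le_mul_right (setLIntegral_shift_le (fun x => ‖fderiv ℝ f x‖ₑ) hO ?_) _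
        rw [norm_smul, Real.norm_eq_abs, abs_of_pos ht.1]
        exact lt_of_le_of_lt (mul_le_of_le_one_left (norm_nonneg _) ht.2) hr
    _ = _ := by simp

/-- One step, one side, integrated. -/
lemma step_integrated {f : X d → ℝ} (hf : CoreFun f) (n : ℕ) (j : ℤ) (w : X d) {Z : ℝ}
    (hZ0 : 0 ≤ Z) (hZ : ∀ B : X d × ℝ, InRange n B → (2:ℝ) ^ j ≤ B.2 →
      avg f B - avg f (B.1 - w, B.2) ≤ Z)
    {O : Set (X d)} (hO : MeasurableSet O) {r : ℝ} (hr : ‖w‖ < r) {S : ℝ≥0∞}
    (hS : ∫⁻ lam, volume (O ∩ layerSet n j f w lam) ≤ S) :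
    ∫⁻ z in O, ENNReal.ofReal (rangeMax n f (z + w) - rangeMax n f z) ≤
      ENNReal.ofReal ‖w‖ * (∫⁻ x in thickening r O, ‖fderiv ℝ f x‖ₑ) +
        ENNReal.ofReal Z * volume O + S := by
  refine le_trans (lintegral_mono fun z => step_pointwise hf n j w hZ0 hZ z) ?_
  have hm := measurableSet_layer_pairs hf n j w
  have hc := hf.1.continuous
  have hmv : Measurable fun z => volume {lam : ℝ | z ∈ layerSet n j f w lam} :=
    measurable_measure_prodMk_left hm
  rw [lintegral_add_right _ hmv, lintegral_add_left (by fun_prop), setLIntegral_const]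
  refine add_le_add (add_le_add (setLIntegral_translate_le hf hO w hr) le_rfl) ?_
  refine le_trans (le_of_eq ?_) hS
  have h1 := Measure.prod_apply (μ := volume.restrict O) (ν := (volume : Measure ℝ)) hm
  have h2 := Measure.prod_apply_symm (μ := volume.restrict O) (ν := (volume : Measure ℝ)) hm
  refine (h1.symm.trans h2).trans (lintegral_congr fun lam => ?_)
  rw [Measure.restrict_apply' hO, inter_comm]
  rfl

lemma preimage_sub_thickening (O : Set (X d)) (w : X d) (r : ℝ) :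
    thickening r ((fun x => x - w) ⁻¹' O) ⊆ thickening (r + ‖w‖) O := by
  intro x hx
  obtain ⟨y, hy, hxy⟩ := mem_thickening_iff.1 hx
  refine mem_thickening_iff.2 ⟨y - w, hy, lt_of_le_of_lt (dist_triangle x y (y - w)) ?_⟩
  have : dist y (y - w) = ‖w‖ := by simp
  linarith

lemma setLIntegral_comp_add (g : X d → ℝ≥0∞) {O : Set (X d)} (hO : MeasurableSet O) (w : X d) :
    ∫⁻ x in O, g (x + w) = ∫⁻ x in (fun x => x - w) ⁻¹' O, g x := by
  rw [← lintegral_indicator hO, ← lintegral_indicator (hO.preimage (measurable_sub_const' w)),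
    ← lintegral_add_right_eq_self (((fun x => x - w) ⁻¹' O).indicator g) w]
  refine lintegral_congr fun x => ?_
  classical
  have hiff : x + w ∈ (fun x => x - w) ⁻¹' O ↔ x ∈ O := by simp
  by_cases hx : x ∈ O
  · rw [indicator_of_mem hx, indicator_of_mem (hiff.2 hx)]
  · rw [indicator_of_notMem hx, indicator_of_notMem (mt hiff.1 hx)]

/-- Both sides of one step. -/
lemma step_both {f : X d → ℝ} (hf : CoreFun f) (n : ℕ) (j : ℤ) (w : X d) {Z : ℝ}
    (hZ0 : 0 ≤ Z) (hZ : ∀ B : X d × ℝ, InRange n B → (2:ℝ) ^ j ≤ B.2 →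
      ∀ w', ‖w'‖ = ‖w‖ → avg f B - avg f (B.1 - w', B.2) ≤ Z)
    {O : Set (X d)} (hO : MeasurableSet O) {C R : ℝ} {T : ℝ≥0∞}
    (hwR : 3 * ‖w‖ ≤ R) (hCR : C * (2:ℝ) ^ j + ‖w‖ ≤ R)
    (hlayer : ∀ w', ‖w'‖ = ‖w‖ → ∀ O' : Set (X d), MeasurableSet O' →
      ∫⁻ lam, volume (O' ∩ layerSet n j f w' lam) ≤ ENNReal.ofReal (C * ‖w‖) *
        ((∫⁻ x in thickening (C * (2:ℝ) ^ j) O', ‖fderiv ℝ f x‖ₑ) + T))
    (hw : w ≠ 0) :
    ∫⁻ z in O, ‖rangeMax n f (z + w) - rangeMax n f z‖ₑ ≤
      2 * (ENNReal.ofReal ‖w‖ * (∫⁻ x in thickening R O, ‖fderiv ℝ f x‖ₑ) +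
        ENNReal.ofReal Z * volume O + ENNReal.ofReal (C * ‖w‖) *
        ((∫⁻ x in thickening R O, ‖fderiv ℝ f x‖ₑ) + T)) := by
  have hu := measurable_rangeMax_all hf n
  simp only [enorm_eq_pos_add_neg, neg_sub]
  rw [lintegral_add_left (by fun_prop), two_mul]
  have hpos : 0 < ‖w‖ := norm_pos_iff.2 hw
  refine add_le_add ?_ ?_
  · refine le_trans (step_integrated hf n j w hZ0 (fun B h1 h2 => hZ B h1 h2 w rfl) hO
      (r := 2 * ‖w‖) (by linarith) (hlayer w rfl O hO)) ?_
    gcongr <;> linarith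
  · set O' := (fun x => x - w) ⁻¹' O with hO'
    have hO'm : MeasurableSet O' := hO.preimage (measurable_sub_const' w)
    have e : ∫⁻ z in O, ENNReal.ofReal (rangeMax n f z - rangeMax n f (z + w)) =
        ∫⁻ z in O', ENNReal.ofReal (rangeMax n f (z + -w) - rangeMax n f z) := by
      rw [hO', ← setLIntegral_comp_add (fun z =>
        ENNReal.ofReal (rangeMax n f (z + -w) - rangeMax n f z)) hO w]
      simp
    have hvol : volume O' = volume O :=
      (measurePreserving_sub_right volume w).measure_preimage hO.nullMeasurableSet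
    rw [e]
    refine le_trans (step_integrated hf n j (-w) hZ0 (fun B h1 h2 => hZ B h1 h2 (-w) (norm_neg w))
      hO'm (r := 2 * ‖w‖) (by rw [norm_neg]; linarith) (hlayer (-w) (norm_neg w) O' hO'm)) ?_
    rw [norm_neg, hvol]
    gcongr
    · exact (preimage_sub_thickening O w _).trans (thickening_mono (by linarith) _)
    · exact (preimage_sub_thickening O w _).trans (thickening_mono (by linarith) _)

/-- A long translation is a sum of short ones. -/
lemma telescope_shift {u : X d → ℝ} (hu : Measurable u) (w : X d) (N : ℕ) {O : Set (X d)}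
    (hO : MeasurableSet O) :
    ∫⁻ x in O, ‖u (x + (N:ℝ) • w) - u x‖ₑ ≤ ∑ k ∈ Finset.range N,
      ∫⁻ x in (fun x => x - (k:ℝ) • w) ⁻¹' O, ‖u (x + w) - u x‖ₑ := by
  induction N with
  | zero => simp
  | succ N ih =>
    rw [Finset.sum_range_succ, ← setLIntegral_comp_add (fun x => ‖u (x + w) - u x‖ₑ) hO]
    refine le_trans ?_ (add_le_add ih le_rfl)
    rw [← lintegral_add_left (by fun_prop)]
    refine lintegral_mono fun x => ?_
    have e : x + ((N + 1 : ℕ) : ℝ) • w = x + (N:ℝ) • w + w := by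
      push_cast; rw [add_smul, one_smul, add_assoc]
    rw [e]
    calc ‖u (x + (N:ℝ) • w + w) - u x‖ₑ
        = ‖(u (x + (N:ℝ) • w) - u x) + (u (x + (N:ℝ) • w + w) - u (x + (N:ℝ) • w))‖ₑ := by
          congr 1; ring
      _ ≤ _ := enorm_add_le _ _

lemma eps0_pos (n : ℕ) : 0 < eps0 n :=
  mul_pos (div_pos (by rw [tau'_val]; norm_num) (by norm_num)) (zpow_pos (by norm_num) _)

/-- The local bound from a bound for small steps. -/
lemma core_local {f : X d → ℝ} (hf : CoreFun f) (n : ℕ) (j : ℤ) {C : ℝ} (hC : 1 ≤ C)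
    {Z₀ : ℝ} (hZ0 : 0 ≤ Z₀) (hZ : ∀ B : X d × ℝ, InRange n B → (2:ℝ) ^ j ≤ B.2 →
      ∀ w : X d, avg f B - avg f (B.1 - w, B.2) ≤ ‖w‖ * Z₀)
    {T : ℝ≥0∞} (hlayer : ∀ w : X d, w ≠ 0 → ‖w‖ ≤ eps0 n → ∀ O' : Set (X d), MeasurableSet O' →
      ∫⁻ lam, volume (O' ∩ layerSet n j f w lam) ≤ ENNReal.ofReal (C * ‖w‖) *
        ((∫⁻ x in thickening (C * (2:ℝ) ^ j) O', ‖fderiv ℝ f x‖ₑ) + T))
    (v : X d) {O : Set (X d)} (hO : MeasurableSet O) :
    ∫⁻ x in O, ‖rangeMax n f (x + v) - rangeMax n f x‖ₑ ≤ ENNReal.ofReal (4 * C * ‖v‖) *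
      (ENNReal.ofReal Z₀ * volume O +
        (∫⁻ x in thickening ((C + 1) * (2:ℝ) ^ j + ‖v‖) O, ‖fderiv ℝ f x‖ₑ) + T) := by
  rcases eq_or_ne v 0 with rfl | hv
  · simp
  have hj : (0:ℝ) < (2:ℝ) ^ j := zpow_pos (by norm_num) _
  obtain ⟨N, hN⟩ := exists_nat_gt (max (‖v‖ / eps0 n) (3 * ‖v‖ / (2:ℝ) ^ j))
  have hN1 := lt_of_le_of_lt (le_max_left _ _) hN
  have hN2 := lt_of_le_of_lt (le_max_right _ _) hN
  have hN0 : (0:ℝ) < N :=
    lt_of_le_of_lt (div_nonneg (norm_nonneg _) (eps0_pos n).le) hN1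
  set w := (N:ℝ)⁻¹ • v with hw
  have hwn : ‖w‖ = ‖v‖ / N := by
    rw [hw, norm_smul, norm_inv, Real.norm_natCast, div_eq_inv_mul]
  have hNw : (N:ℝ) • w = v := by rw [hw, smul_smul, mul_inv_cancel₀ hN0.ne', one_smul]
  have hNn : (N:ℝ) * ‖w‖ = ‖v‖ := by rw [hwn]; field_simp
  have hw0 : w ≠ 0 := smul_ne_zero (inv_ne_zero hN0.ne') hv
  have hw1 : ‖w‖ ≤ eps0 n := by
    rw [hwn, div_le_iff₀ hN0]; rw [div_lt_iff₀ (eps0_pos n)] at hN1; linarith
  have hw2 : 3 * ‖w‖ ≤ (2:ℝ) ^ j := by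
    rw [hwn, ← mul_div_assoc, div_le_iff₀ hN0]; rw [div_lt_iff₀ hj] at hN2; linarith
  set R := C * (2:ℝ) ^ j + ‖w‖ with hR
  have key : ∀ k ∈ Finset.range N,
      ∫⁻ x in (fun x => x - (k:ℝ) • w) ⁻¹' O, ‖rangeMax n f (x + w) - rangeMax n f x‖ₑ ≤
      ENNReal.ofReal (4 * C * ‖w‖) * (ENNReal.ofReal Z₀ * volume O +
        (∫⁻ x in thickening ((C + 1) * (2:ℝ) ^ j + ‖v‖) O, ‖fderiv ℝ f x‖ₑ) + T) := by
    intro k hk
    have hkN : (k:ℝ) ≤ N := by exact_mod_cast (Finset.mem_range.1 hk).le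
    have hOm := hO.preimage (measurable_sub_const' ((k:ℝ) • w))
    refine le_trans (step_both hf n j w (Z := ‖w‖ * Z₀) (by positivity)
      (fun B h1 h2 w' hw' => by rw [← hw']; exact hZ B h1 h2 w') hOm (R := R) (T := T)
      (le_trans hw2 (by rw [hR]; nlinarith [norm_nonneg w])) le_rfl
      (fun w' hw' O' hO' => by
        rw [← hw']
        exact hlayer w' (fun h => hw0 (norm_eq_zero.1 (by rw [← hw', h, norm_zero])))
          (hw'.le.trans hw1) O' hO') hw0) ?_
    rw [(measurePreserving_sub_right volume ((k:ℝ) • w)).measure_preimage hO.nullMeasurableSet]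
    have hsub : thickening R ((fun x => x - (k:ℝ) • w) ⁻¹' O) ⊆
        thickening ((C + 1) * (2:ℝ) ^ j + ‖v‖) O := by
      refine (preimage_sub_thickening O _ _).trans (thickening_mono ?_ _)
      rw [norm_smul, Real.norm_natCast, hR]
      have : (k:ℝ) * ‖w‖ ≤ ‖v‖ := hNn ▸ mul_le_mul_of_nonneg_right hkN (norm_nonneg _)
      nlinarith [norm_nonneg w]
    have hI := lintegral_mono_set (μ := volume) (f := fun x => ‖fderiv ℝ f x‖ₑ) hsub
    set A := ∫⁻ x in thickening R ((fun x => x - (k:ℝ) • w) ⁻¹' O), ‖fderiv ℝ f x‖ₑ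
    set A' := ∫⁻ x in thickening ((C + 1) * (2:ℝ) ^ j + ‖v‖) O, ‖fderiv ℝ f x‖ₑ
    set E := ENNReal.ofReal ‖w‖ with hE
    set c := ENNReal.ofReal C with hc
    have hc1 : 1 ≤ c := ENNReal.one_le_ofReal.2 hC
    have e4 : ENNReal.ofReal (4 * C * ‖w‖) = 4 * c * E := by
      rw [ENNReal.ofReal_mul (by positivity), ENNReal.ofReal_mul (by norm_num)]
      norm_num [hE, hc]
    have eC : ENNReal.ofReal (C * ‖w‖) = c * E := ENNReal.ofReal_mul (by linarith)
    rw [e4, eC, ENNReal.ofReal_mul (norm_nonneg _)]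
    calc 2 * (E * A + E * ENNReal.ofReal Z₀ * volume O + c * E * (A + T))
        ≤ 2 * (c * E * A' + c * E * (ENNReal.ofReal Z₀ * volume O) + c * E * (A' + T)) := by
          rw [mul_assoc E]
          gcongr <;> exact le_mul_of_one_le_left' hc1
      _ ≤ 4 * c * E * (ENNReal.ofReal Z₀ * volume O + A' + T) := by
          rw [show (4:ℝ≥0∞) = 2 + 2 by norm_num]
          simp only [mul_add, add_mul, ← mul_assoc]
          ring_nf
          gcongr <;> norm_num
  conv_lhs => rw [← hNw]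
  refine le_trans (telescope_shift (measurable_rangeMax_all hf n) w N hO)
    (le_trans (Finset.sum_le_sum key) (le_of_eq ?_))
  rw [Finset.sum_const, Finset.card_range, nsmul_eq_mul, ← mul_assoc]
  congr 1
  rw [← ENNReal.ofReal_natCast, ← ENNReal.ofReal_mul (Nat.cast_nonneg N), ← hNn]
  congr 1
  ring

/-- **Assembly.** The core bound. -/
theorem coreBound_of_layer : LayerBound → TripleBound → CoreBound := by
  intro hL hT d hd
  obtain ⟨C, hC, hlayer⟩ := hL d hd
  obtain ⟨CT, hCT⟩ := hT d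
  set ω := (volume (ball (0 : X d) 1)).toReal with hω
  have hω0 : 0 < ω :=
    ENNReal.toReal_pos (measure_ball_pos volume _ one_pos).ne' measure_ball_lt_top.ne
  set K := max (4 * C * (1 + max CT 0)) (max (4 * C * (1 + ω⁻¹)) (C + 1)) with hK
  have hK1 : 4 * C * (1 + max CT 0) ≤ K := le_max_left _ _
  have hK2 : 4 * C * (1 + ω⁻¹) ≤ K := le_trans (le_max_left _ _) (le_max_right _ _)
  have hK3 : C + 1 ≤ K := le_trans (le_max_right _ _) (le_max_right _ _)
  have hK0 : 0 ≤ K := by linarith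
  refine ⟨K, hK0, fun f hf n v => ⟨?_, fun j O hO => ?_⟩⟩
  · have h := core_local hf n (n : ℤ) hC (Z₀ := 0) le_rfl
      (fun B hB hBj => absurd hB.2 (not_lt.2 hBj))
      (T := ∑' k : ℤ, (trip mShort f k + trip mLong f k))
      (fun w h1 h2 O' hO' => le_trans (hlayer f hf n (n : ℤ) w h1 h2 O' hO') (by
        gcongr
        refine ENNReal.tsum_le_tsum fun k => ?_
        split_ifs <;> simp))
      v MeasurableSet.univ
    rw [setLIntegral_univ] at h
    refine le_trans h ?_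
    rw [ENNReal.ofReal_zero, zero_mul, zero_add]
    calc ENNReal.ofReal (4 * C * ‖v‖) * _
        ≤ ENNReal.ofReal (4 * C * ‖v‖) * ((∫⁻ x, ‖fderiv ℝ f x‖ₑ) +
            ENNReal.ofReal (max CT 0) * ∫⁻ x, ‖fderiv ℝ f x‖ₑ) := by
          refine mul_le_mul_right (add_le_add (setLIntegral_le_lintegral _ _)
            (le_trans (hCT f hf) ?_)) _
          gcongr
          exact le_max_left _ _
      _ = ENNReal.ofReal (4 * C * (1 + max CT 0) * ‖v‖) * ∫⁻ x, ‖fderiv ℝ f x‖ₑ := by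
          rw [← one_add_mul, ← mul_assoc, ← ENNReal.ofReal_one,
            ← ENNReal.ofReal_add zero_le_one (le_max_right _ _),
            ← ENNReal.ofReal_mul (by positivity)]
          congr 2
          ring
      _ ≤ _ := by gcongr
  · have hj : (0:ℝ) < (2:ℝ) ^ j := zpow_pos (by norm_num) _
    set G := (∫⁻ x, ‖fderiv ℝ f x‖ₑ).toReal with hG
    set V := (volume (ball (0 : X d) ((2:ℝ) ^ j))).toReal with hV
    have hVe : V = ((2:ℝ) ^ j) ^ d * ω := by
      rw [hV, Measure.addHaar_ball_of_pos volume _ hj, ENNReal.toReal_mul, finrank_euclideanSpace,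
        Fintype.card_fin, ENNReal.toReal_ofReal (by positivity)]
    have h := core_local hf n j hC (Z₀ := V⁻¹ * G)
      (mul_nonneg (inv_nonneg.2 ENNReal.toReal_nonneg) ENNReal.toReal_nonneg)
      (fun B _ hBj w => le_trans (avg_sub_shift_le hf w j hBj) (le_of_eq (by ring)))
      (T := tail f (C * (2:ℝ) ^ j))
      (fun w h1 h2 O' hO' => hlayer f hf n j w h1 h2 O' hO') v hO
    refine le_trans h ?_
    have eZ : ENNReal.ofReal (V⁻¹ * G) = ENNReal.ofReal ω⁻¹ *
        (ENNReal.ofReal (((2:ℝ) ^ j) ^ d)⁻¹ * ∫⁻ x, ‖fderiv ℝ f x‖ₑ) := by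
      rw [hVe, mul_inv, ENNReal.ofReal_mul (by positivity), hG, ENNReal.ofReal_toReal hf.2.2.2.ne,
        ENNReal.ofReal_mul (by positivity)]
      ring
    rw [eZ]
    set m := ENNReal.ofReal (1 + ω⁻¹) with hm
    have hm1 : 1 ≤ m := ENNReal.one_le_ofReal.2 (le_add_of_nonneg_right (inv_nonneg.2 hω0.le))
    have hmω : ENNReal.ofReal ω⁻¹ ≤ m := ENNReal.ofReal_le_ofReal (by linarith)
    have htail : tail f (C * (2:ℝ) ^ j) ≤ tail f (K * (2:ℝ) ^ j) := by
      refine ENNReal.tsum_le_tsum fun k => ?_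
      split_ifs with h1 h2
      · exact le_rfl
      · exact absurd (lt_of_lt_of_le h1 (mul_le_mul_of_nonneg_right (by linarith) hj.le)) h2
      · exact zero_le
      · exact le_rfl
    set P := ENNReal.ofReal (((2:ℝ) ^ j) ^ d)⁻¹ * ∫⁻ x, ‖fderiv ℝ f x‖ₑ with hP
    calc ENNReal.ofReal (4 * C * ‖v‖) * (ENNReal.ofReal ω⁻¹ * P * volume O +
          (∫⁻ x in thickening ((C + 1) * (2:ℝ) ^ j + ‖v‖) O, ‖fderiv ℝ f x‖ₑ) +
            tail f (C * (2:ℝ) ^ j))
        ≤ ENNReal.ofReal (4 * C * ‖v‖) * (m * (P * volume O) +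
            m * (∫⁻ x in thickening (K * (2:ℝ) ^ j + ‖v‖) O, ‖fderiv ℝ f x‖ₑ) +
              m * tail f (K * (2:ℝ) ^ j)) := by
          rw [mul_assoc (ENNReal.ofReal ω⁻¹)]
          refine mul_le_mul_right (add_le_add (add_le_add (mul_le_mul_left hmω _) ?_) ?_) _
          · refine le_trans (lintegral_mono_set (thickening_mono ?_ O)) (le_mul_of_one_le_left' hm1)
            nlinarith
          · exact le_trans htail (le_mul_of_one_le_left' hm1)
      _ = ENNReal.ofReal (4 * C * (1 + ω⁻¹) * ‖v‖) * (P * volume O +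
            (∫⁻ x in thickening (K * (2:ℝ) ^ j + ‖v‖) O, ‖fderiv ℝ f x‖ₑ) +
              tail f (K * (2:ℝ) ^ j)) := by
          rw [hm, ← mul_add, ← mul_add, ← mul_assoc, ← ENNReal.ofReal_mul (by positivity)]
          congr 2
          ring
      _ ≤ _ := by gcongr

end Vale.Agent.P137
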