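import Vale.Agent.P137.Core.Defs

/-!
P137: every ball belongs to a class, and the classes of one scale have bounded overlap.
-/

open MeasureTheory Metric Set
open scoped ENNReal

noncomputable section

namespace Vale.Agent.P137

variable {d : ℕ}

lemma rad0_lt (P : Cls d) : rad0 P < 2 * (2:ℝ) ^ P.1 := by
  have h2 : (0:ℝ) < (2:ℝ) ^ P.1 := by positivity
  have hi : (P.2.1 : ℝ) < 524288 := by exact_mod_cast P.2.1.isLt
  have : (P.2.1 : ℝ) * tau' < 1 := by rw [tau'_val]; linarith
  unfold rad0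
  nlinarith

lemma le_rad0 (P : Cls d) : (2:ℝ) ^ P.1 ≤ rad0 P := by
  have h2 : (0:ℝ) < (2:ℝ) ^ P.1 := by positivity
  have : (0:ℝ) ≤ (P.2.1 : ℝ) * tau' := by rw [tau'_val]; positivity
  unfold rad0
  nlinarith

/-- Every ball belongs to a class. -/
theorem classCover : ClassCover := by
  intro d c r hr
  set k := Int.log 2 r
  have h2 : (0:ℝ) < (2:ℝ) ^ k := by positivity
  have hkr : (2:ℝ) ^ k ≤ r := by exact_mod_cast Int.zpow_log_le_self (b := 2) (by norm_num) hr
  have hrk : r < (2:ℝ) ^ (k + 1) := by exact_mod_cast Int.lt_zpow_succ_log_self (b := 2) (by norm_num) r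
  rw [zpow_add_one₀ (two_ne_zero' ℝ)] at hrk
  set q := (r / (2:ℝ) ^ k - 1) * 524288 with hq
  have hq0 : 0 ≤ q := mul_nonneg (sub_nonneg.mpr ((one_le_div h2).mpr hkr)) (by norm_num)
  have hq1 : q < 524288 := by
    have : r / (2:ℝ) ^ k < 2 := by rw [div_lt_iff₀ h2]; linarith
    linarith
  have hiN : Nat.floor q < 524288 := by
    rw [Nat.floor_lt hq0]; exact_mod_cast hq1
  have hfl : (Nat.floor q : ℝ) ≤ q := Nat.floor_le hq0
  have hfu : q < (Nat.floor q : ℝ) + 1 := Nat.lt_floor_add_one q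
  set s : ℝ := tau' * (2:ℝ) ^ k / (d + 1) with hsdef
  have htau : (0:ℝ) < tau' := by rw [tau'_val]; norm_num
  have hs : 0 < s := by positivity
  let P : Cls d := (k, ⟨Nat.floor q, hiN⟩, fun i => ⌊c i / s⌋)
  have hr0 : rad0 P = (2:ℝ) ^ k * (1 + (Nat.floor q : ℝ) / 524288) := by
    change (2:ℝ) ^ k * (1 + (Nat.floor q : ℝ) * tau') = _
    rw [tau'_val]; ring
  have hrq : r = (2:ℝ) ^ k * (1 + q / 524288) := by rw [hq]; field_simp; ring
  refine ⟨P, le_rad0 P, ?_, ?_, ?_⟩
  · rw [hr0, hrq]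
    gcongr
  · calc r ≤ rad0 P + (2:ℝ) ^ k * tau' := by
          rw [hr0, hrq, tau'_val, ← mul_add]
          refine mul_le_mul_of_nonneg_left ?_ h2.le
          linarith
      _ ≤ rad0 P + rad0 P * tau' := by gcongr; exact le_rad0 P
      _ = _ := by ring
  · have hb : ‖c - cen0 P‖ ≤ tau' * (2:ℝ) ^ k := by
      refine abs_le_of_sq_le_sq' ?_ (by positivity) |>.2
      rw [EuclideanSpace.norm_sq_eq]
      calc ∑ i, ‖(c - cen0 P) i‖ ^ 2 ≤ ∑ _i : Fin d, s ^ 2 := by
            refine Finset.sum_le_sum fun i _ => pow_le_pow_left₀ (norm_nonneg _) ?_ 2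
            have h1 : (c - cen0 P) i = c i - (⌊c i / s⌋ : ℝ) * s := rfl
            have h3 := Int.floor_le (c i / s)
            have h4 := Int.lt_floor_add_one (c i / s)
            rw [le_div_iff₀ hs] at h3
            rw [div_lt_iff₀ hs] at h4
            rw [h1, Real.norm_eq_abs, abs_le]
            constructor <;> nlinarith
        _ ≤ ((d:ℝ) + 1) ^ 2 * s ^ 2 := by
            simp only [Finset.sum_const, Finset.card_univ, Fintype.card_fin, nsmul_eq_mul]
            gcongr
            nlinarith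
        _ = _ := by rw [hsdef]; field_simp
    refine ⟨?_, hb.trans (mul_le_mul_of_nonneg_left (le_rad0 P) htau.le)⟩
    rw [zpow_add_one₀ (two_ne_zero' ℝ)]
    exact hrk

/-- The inner triple integral at scale `2 ^ k`. -/
def innerTriple (m : ℕ) (f : X d → ℝ) (R : ℝ) (y : X d) : ℝ≥0∞ :=
  ∫⁻ p in ball y R, ENNReal.ofReal (N3 (f y) (f (node m y p)) (f p))

lemma measurable_innerTriple (m : ℕ) {f : X d → ℝ} (hf : Continuous f) (R : ℝ) :
    Measurable (innerTriple m f R) := by
  have hS : MeasurableSet {q : X d × X d | dist q.2 q.1 < R} :=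
    (isOpen_lt (by fun_prop) continuous_const).measurableSet
  have hc : Continuous fun q : X d × X d =>
      ENNReal.ofReal (N3 (f q.1) (f (node m q.1 q.2)) (f q.2)) := by
    refine ENNReal.continuous_ofReal.comp ?_
    unfold N3 node
    fun_prop
  have h := (hc.measurable.indicator hS).lintegral_prod_right' (ν := (volume : Measure (X d)))
  convert h using 1
  ext y
  rw [innerTriple, ← lintegral_indicator measurableSet_ball]
  rfl

/-- Number of classes of one scale seen from a point. -/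
def overlapN (d : ℕ) : ℕ := 524288 * (2 * (4194304 * (d + 1)) + 1) ^ d

lemma overlap_le (k : ℤ) (y : X d) (h : X d → ℝ≥0∞) :
    ∑' q : Fin 524288 × (Fin d → ℤ),
      (ball (cen0 ((k, q) : Cls d)) (2 * rad0 ((k, q) : Cls d))).indicator h y ≤
      (overlapN d : ℝ≥0∞) * h y := by
  classical
  have h2 : (0:ℝ) < (2:ℝ) ^ k := by positivity
  set s : ℝ := tau' * (2:ℝ) ^ k / (d + 1) with hsdef
  have hs : 0 < s := by rw [hsdef, tau'_val]; positivity
  set M : ℤ := 4194304 * (d + 1) with hM
  have hMs : 4 * (2:ℝ) ^ k + s ≤ (M : ℝ) * s := by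
    have e1 : (M : ℝ) * s = 8 * (2:ℝ) ^ k := by
      rw [hsdef, tau'_val, hM]
      push_cast
      field_simp
      ring
    have e2 : s ≤ (2:ℝ) ^ k := by
      rw [hsdef, div_le_iff₀ (by positivity : (0:ℝ) < (d:ℝ) + 1), mul_comm]
      refine mul_le_mul_of_nonneg_left ?_ h2.le
      rw [tau'_val]
      have hd : (0:ℝ) ≤ d := Nat.cast_nonneg d
      linarith
    linarith
  set T : Finset (Fin 524288 × (Fin d → ℤ)) := Finset.univ ×ˢ
    Fintype.piFinset fun i => Finset.Icc (⌊y i / s⌋ - M) (⌊y i / s⌋ + M) with hT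
  have hcard : T.card = overlapN d := by
    rw [hT, Finset.card_product, Fintype.card_piFinset, overlapN]
    simp only [Int.card_Icc, Finset.card_univ, Fintype.card_fin]
    congr 1
    have : ∀ a : ℤ, (a + M + 1 - (a - M)).toNat = 2 * (4194304 * (d + 1)) + 1 := by
      intro a; rw [hM]; omega
    simp [this]
  rw [tsum_eq_sum (s := T) ?_]
  · calc ∑ q ∈ T, (ball (cen0 ((k, q) : Cls d)) (2 * rad0 ((k, q) : Cls d))).indicator h y
        ≤ ∑ _q ∈ T, h y := Finset.sum_le_sum fun q _ => indicator_le_self' (fun _ _ => zero_le) y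
      _ = _ := by rw [Finset.sum_const, hcard, nsmul_eq_mul]
  intro q hq
  refine indicator_of_notMem (fun hy => hq ?_) _
  rw [hT]
  simp only [Finset.mem_product, Finset.mem_univ, true_and, Fintype.mem_piFinset, Finset.mem_Icc]
  intro i
  have hlt : |y i - (q.2 i : ℝ) * s| < 4 * (2:ℝ) ^ k := by
    have h1 : ‖(y - cen0 ((k, q) : Cls d)) i‖ ≤ ‖y - cen0 ((k, q) : Cls d)‖ :=
      PiLp.norm_apply_le _ i
    rw [mem_ball, dist_eq_norm] at hy
    have h3 := rad0_lt ((k, q) : Cls d)
    rw [show (y - cen0 ((k, q) : Cls d)) i = y i - (q.2 i : ℝ) * s from rfl,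
      Real.norm_eq_abs] at h1
    simp only at h3
    linarith
  rw [abs_lt] at hlt
  have h3 := Int.floor_le (y i / s)
  have h4 := Int.lt_floor_add_one (y i / s)
  rw [le_div_iff₀ hs] at h3
  rw [div_lt_iff₀ hs] at h4
  constructor
  · by_contra hc
    rw [not_le] at hc
    have hcR : (q.2 i : ℝ) + 1 ≤ (⌊y i / s⌋ : ℝ) - M := by exact_mod_cast hc
    have hm := mul_le_mul_of_nonneg_right hcR hs.le
    rw [add_mul, one_mul, sub_mul] at hm
    linarith only [hm, hMs, hlt.1, hlt.2, h3, h4, hs]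
  · by_contra hc
    rw [not_le] at hc
    have hcR : (⌊y i / s⌋ : ℝ) + M + 1 ≤ (q.2 i : ℝ) := by exact_mod_cast hc
    have hm := mul_le_mul_of_nonneg_right hcR hs.le
    rw [add_mul, add_mul, one_mul] at hm
    rw [add_mul, one_mul] at h4
    linarith only [hm, hMs, hlt.1, hlt.2, h3, h4, hs]

lemma scale_sum_le {f : X d → ℝ} (hf : Continuous f) (m : ℕ) (k : ℤ) :
    ∑' q : Fin 524288 × (Fin d → ℤ),
      ENNReal.ofReal (rad0 ((k, q) : Cls d) ^ (d + 1))⁻¹ *
        (∫⁻ y in ball (cen0 ((k, q) : Cls d)) (2 * rad0 ((k, q) : Cls d)),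
          ∫⁻ p in ball y (32 * rad0 ((k, q) : Cls d)),
            ENNReal.ofReal (N3 (f y) (f (node m y p)) (f p))) ≤
      (overlapN d : ℝ≥0∞) * trip m f k := by
  set c := ENNReal.ofReal (((2:ℝ) ^ k) ^ (d + 1))⁻¹
  set h := innerTriple m f (Kc * (2:ℝ) ^ k)
  have hh : Measurable h := measurable_innerTriple m hf _
  calc _ ≤ ∑' q : Fin 524288 × (Fin d → ℤ), c *
        ∫⁻ y, (ball (cen0 ((k, q) : Cls d)) (2 * rad0 ((k, q) : Cls d))).indicator h y := by
        refine ENNReal.tsum_le_tsum fun q => mul_le_mul' (ENNReal.ofReal_le_ofReal ?_) ?_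
        · exact inv_anti₀ (by positivity) (pow_le_pow_left₀ (by positivity) (le_rad0 ((k, q) : Cls d)) (d + 1))
        · rw [lintegral_indicator measurableSet_ball]
          refine lintegral_mono fun y => lintegral_mono_set (ball_subset_ball ?_)
          have := rad0_lt ((k, q) : Cls d)
          simp only at this
          simp only [Kc]
          linarith
    _ = c * ∫⁻ y, ∑' q : Fin 524288 × (Fin d → ℤ),
        (ball (cen0 ((k, q) : Cls d)) (2 * rad0 ((k, q) : Cls d))).indicator h y := by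
        rw [ENNReal.tsum_mul_left, lintegral_tsum]
        exact fun q => (hh.indicator measurableSet_ball).aemeasurable
    _ ≤ c * ∫⁻ y, (overlapN d : ℝ≥0∞) * h y := by
        gcongr with y
        exact overlap_le k y h
    _ = _ := by
        rw [lintegral_const_mul _ hh, trip]
        simp only [c, h, innerTriple]
        ring

/-- The classes below a scale have bounded overlap. -/
theorem classSum : ClassSum := by
  intro d
  refine ⟨(overlapN d : ℝ), fun f hf δ => ?_⟩
  rw [ENNReal.ofReal_natCast, tail, ENNReal.tsum_prod', ← ENNReal.tsum_mul_left]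
  refine ENNReal.tsum_le_tsum fun k => ?_
  split_ifs with hk
  · simp only [pairTriple, mul_add, ENNReal.tsum_add]
    exact add_le_add (scale_sum_le hf mShort k) (scale_sum_le hf mLong k)
  · simp

end Vale.Agent.P137
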