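import Vale.Agent.P137.Dichotomy

/-!
Interfaces inside the core bound.
-/

open MeasureTheory Metric
open scoped ENNReal

noncomputable section

namespace Vale.Agent.P137

variable {d : ℕ}

/-- The radius of the ball is admissible at truncation `n`. -/
def InRange (n : ℕ) (B : X d × ℝ) : Prop := (2:ℝ) ^ (-(n:ℤ)) ≤ B.2 ∧ B.2 < (2:ℝ) ^ (n:ℤ)

/-- The union of the admissible balls of average above the level. -/
def superSet (n : ℕ) (f : X d → ℝ) (lam : ℝ) : Set (X d) :=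
  {z | ∃ B, InRange n B ∧ lam < avg f B ∧ z ∈ ball B.1 B.2}

/-- The same union over the radii below `2 ^ j`. -/
def smallSet (n : ℕ) (j : ℤ) (f : X d → ℝ) (lam : ℝ) : Set (X d) :=
  {z | ∃ B, InRange n B ∧ B.2 < (2:ℝ) ^ j ∧ lam < avg f B ∧ z ∈ ball B.1 B.2}

/-- The points entering the small part of a superlevel set after a step `w`. -/
def layerSet (n : ℕ) (j : ℤ) (f : X d → ℝ) (w : X d) (lam : ℝ) : Set (X d) :=
  {z | f z ≤ lam ∧ z ∉ superSet n f lam ∧ z + w ∈ smallSet n j f lam}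

/-- The admissible step at truncation `n`. -/
def eps0 (n : ℕ) : ℝ := tau' / 4 * (2:ℝ) ^ (-(n:ℤ))

/-- The small balls' part of the core bound. -/
def LayerBound : Prop :=
  ∀ d : ℕ, 1 ≤ d → ∃ C : ℝ, 1 ≤ C ∧ ∀ f : X d → ℝ, CoreFun f → ∀ (n : ℕ) (j : ℤ) (w : X d),
    w ≠ 0 → ‖w‖ ≤ eps0 n → ∀ O : Set (X d), MeasurableSet O →
      ∫⁻ lam, volume (O ∩ layerSet n j f w lam) ≤ ENNReal.ofReal (C * ‖w‖) *
        ((∫⁻ x in thickening (C * (2:ℝ) ^ j) O, ‖fderiv ℝ f x‖ₑ) + tail f (C * (2:ℝ) ^ j))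

/-- Indices of the classes: scale, radius step, cell. -/
abbrev Cls (d : ℕ) := ℤ × Fin 524288 × (Fin d → ℤ)

/-- Reference radius of a class. -/
def rad0 (P : Cls d) : ℝ := (2:ℝ) ^ P.1 * (1 + (P.2.1 : ℝ) * tau')

/-- Reference centre of a class. -/
def cen0 (P : Cls d) : X d :=
  WithLp.toLp 2 fun i => (P.2.2 i : ℝ) * (tau' * (2:ℝ) ^ P.1 / (d + 1))

/-- Both triple integrals around a reference ball. -/
def pairTriple (f : X d → ℝ) (c : X d) (r : ℝ) : ℝ≥0∞ :=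
  (∫⁻ y in ball c (2 * r), ∫⁻ p in ball y (32 * r),
      ENNReal.ofReal (N3 (f y) (f (node mShort y p)) (f p))) +
  ∫⁻ y in ball c (2 * r), ∫⁻ p in ball y (32 * r),
      ENNReal.ofReal (N3 (f y) (f (node mLong y p)) (f p))

/-- Every ball belongs to a class. -/
def ClassCover : Prop :=
  ∀ (d : ℕ) (c : X d) (r : ℝ), 0 < r → ∃ P : Cls d, (2:ℝ) ^ P.1 ≤ rad0 P ∧ rad0 P ≤ r ∧
    r ≤ rad0 P * (1 + tau') ∧ r < (2:ℝ) ^ (P.1 + 1) ∧ ‖c - cen0 P‖ ≤ tau' * rad0 P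

/-- The classes below a scale have bounded overlap. -/
def ClassSum : Prop :=
  ∀ d : ℕ, ∃ C : ℝ, ∀ f : X d → ℝ, Continuous f → ∀ δ : ℝ,
    ∑' P : Cls d, (if (2:ℝ) ^ P.1 < δ then
      ENNReal.ofReal (rad0 P ^ (d + 1))⁻¹ * pairTriple f (cen0 P) (rad0 P) else 0) ≤
    ENNReal.ofReal C * tail f δ

end Vale.Agent.P137
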