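import Vale.Agent.P137.Core.Levels
import Vale.Agent.P137.Core.Classes
import Vale.Agent.P137.Shell

/-!
The layer bound for the small balls.
-/

open MeasureTheory Metric Filter Set
open scoped ENNReal Topology

noncomputable section

namespace Vale.Agent.P137

variable {d : ℕ}

lemma isOpen_superSet (n : ℕ) (f : X d → ℝ) (lam : ℝ) : IsOpen (superSet n f lam) := by
  have : superSet n f lam = ⋃ B ∈ {B | InRange n B ∧ lam < avg f B}, ball B.1 B.2 := by
    ext z
    simp [superSet, and_assoc]
  rw [this]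
  exact isOpen_biUnion fun B _ => isOpen_ball

/-- The integral in the level of a band of width `h`. -/
lemma lintegral_band (f : X d → ℝ) (hf : Measurable f) {G : X d → ℝ≥0∞} (hG : Measurable G)
    (K : Set (X d)) (h : ℝ) :
    ∫⁻ lam, ∫⁻ y in K, {y | lam < f y ∧ f y < lam + h}.indicator G y
      = ENNReal.ofReal h * ∫⁻ y in K, G y := by
  set S : Set (ℝ × X d) := {q | q.1 < f q.2 ∧ f q.2 < q.1 + h} with hS
  have hSm : MeasurableSet S :=
    (measurableSet_lt measurable_fst (hf.comp measurable_snd)).inter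
      (measurableSet_lt (hf.comp measurable_snd) (measurable_fst.add_const h))
  have hm : Measurable (S.indicator fun q : ℝ × X d => G q.2) :=
    (hG.comp measurable_snd).indicator hSm
  have e : ∀ lam y, {y | lam < f y ∧ f y < lam + h}.indicator G y
      = S.indicator (fun q : ℝ × X d => G q.2) (lam, y) := fun lam y => by
    simp [Set.indicator, hS]
  simp only [e]
  rw [lintegral_lintegral_swap (f := fun (lam : ℝ) (y : X d) =>
    S.indicator (fun q : ℝ × X d => G q.2) (lam, y)) hm.aemeasurable, ← lintegral_const_mul _ hG]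
  refine lintegral_congr fun y => ?_
  have e2 : (fun lam => S.indicator (fun q : ℝ × X d => G q.2) (lam, y))
      = (Ioo (f y - h) (f y)).indicator fun _ => G y := by
    funext lam
    by_cases hl : lam ∈ Ioo (f y - h) (f y)
    · rw [indicator_of_mem hl, indicator_of_mem]
      exact ⟨hl.2, by linarith [hl.1]⟩
    · rw [indicator_of_notMem hl, indicator_of_notMem]
      rintro ⟨h1, h2⟩
      exact hl ⟨by linarith, h1⟩
  rw [e2, lintegral_indicator measurableSet_Ioo, setLIntegral_const, Real.volume_Ioo,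
    sub_sub_cancel, mul_comm]

lemma measurable_band {f : X d → ℝ} (hf : Measurable f) {G : X d → ℝ≥0∞} (hG : Measurable G)
    (K : Set (X d)) (h : ℝ) :
    Measurable fun lam => ∫⁻ y in K, {y | lam < f y ∧ f y < lam + h}.indicator G y := by
  set S : Set (ℝ × X d) := {q | q.1 < f q.2 ∧ f q.2 < q.1 + h} with hS
  have hSm : MeasurableSet S :=
    (measurableSet_lt measurable_fst (hf.comp measurable_snd)).inter
      (measurableSet_lt (hf.comp measurable_snd) (measurable_fst.add_const h))
  have hm : Measurable (S.indicator fun q : ℝ × X d => G q.2) :=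
    (hG.comp measurable_snd).indicator hSm
  have e : ∀ lam y, {y | lam < f y ∧ f y < lam + h}.indicator G y
      = S.indicator (fun q : ℝ × X d => G q.2) (lam, y) := fun lam y => by
    simp [Set.indicator, hS]
  simp only [e]
  exact hm.lintegral_prod_right'

/-- The points near balls with targets at height `h`. -/
def shellPart (n : ℕ) (j : ℤ) (f : X d → ℝ) (κ L ε lam h : ℝ) (O : Set (X d)) : Set (X d) :=
  {z ∈ O \ superSet n f lam | f z ≤ lam ∧
    ∃ B ∈ {B : X d × ℝ | InRange n B ∧ B.2 < (2:ℝ) ^ j ∧ HasTarget n f lam κ L h ε B},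
      z ∈ ball B.1 (B.2 + ε)}

lemma shellPart_anti (n : ℕ) (j : ℤ) (f : X d → ℝ) (κ L ε lam : ℝ) {h h' : ℝ} (hh : h ≤ h')
    (O : Set (X d)) : shellPart n j f κ L ε lam h' O ⊆ shellPart n j f κ L ε lam h O := by
  rintro z ⟨hzO, hzf, B, ⟨hR, hj, T, hTm, hTs, hTv, hTseg⟩, hz⟩
  exact ⟨hzO, hzf, B, ⟨hR, hj, T, hTm, hTs,
    hTv.trans (measure_mono (inter_subset_inter_right _ fun p (hp : lam + h' < f p) => by
      show lam + h < f p
      linarith)), hTseg⟩, hz⟩

/-- A target at height zero is a target at some positive height. -/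
lemma exists_height {n : ℕ} {f : X d → ℝ} {lam κ L ε : ℝ} {B : X d × ℝ} (hκ : 0 < κ) (hr : 0 < B.2)
    (h : HasTarget n f lam κ L 0 ε B) :
    ∃ m : ℕ, HasTarget n f lam (κ / 2) L (1 / ((m:ℝ) + 1)) ε B := by
  obtain ⟨T, hTm, hTs, hTv, hTseg⟩ := h
  set A : ℕ → Set (X d) := fun m => T ∩ {p | lam + 1 / ((m:ℝ) + 1) < f p} with hA
  have hAmono : Monotone A := fun a b hab => inter_subset_inter_right _ fun p hp => by
    have : 1 / ((b:ℝ) + 1) ≤ 1 / ((a:ℝ) + 1) :=
      one_div_le_one_div_of_le (by positivity) (by exact_mod_cast Nat.add_le_add_right hab 1)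
    simp only [mem_ofPred_eq] at hp ⊢
    linarith
  have hAU : T ∩ {p | lam + 0 < f p} = ⋃ m, A m := by
    ext p
    simp only [hA, add_zero, mem_inter_iff, mem_ofPred_eq, mem_iUnion]
    constructor
    · rintro ⟨hp, hlt⟩
      obtain ⟨m, hm⟩ := exists_nat_one_div_lt (sub_pos.mpr hlt)
      exact ⟨m, hp, by linarith⟩
    · rintro ⟨m, hp, hlt⟩
      have : (0:ℝ) < 1 / ((m:ℝ) + 1) := by positivity
      exact ⟨hp, by linarith⟩
  rw [hAU, hAmono.measure_iUnion] at hTv
  have hlt : ENNReal.ofReal (κ / 2 * B.2 ^ d) < ⨆ m, volume (A m) := by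
    refine lt_of_lt_of_le ?_ hTv
    rw [ENNReal.ofReal_lt_ofReal_iff (by positivity)]
    exact mul_lt_mul_of_pos_right (by linarith) (pow_pos hr d)
  obtain ⟨m, hm⟩ := lt_iSup_iff.mp hlt
  exact ⟨m, T, hTm, hTs, hm.le, hTseg⟩

/-- The bound for the small balls. -/
theorem layerBound_of (hS : ShellBound) (hcov : ClassCover) (hsum : ClassSum) : LayerBound := by
  classical
  intro d hd
  obtain ⟨κ, L, C, hκ, hL, hC, htb⟩ := target_or_bad hd
  obtain ⟨Cs, hshell⟩ := hS d (κ / 2) L (by linarith) hL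
  obtain ⟨Cc, hclass⟩ := hsum d
  set K := 4 ^ (d + 1) * 2 ^ d * C with hK
  set CC := max 16 (max Cs (K * Cc)) with hCC
  refine ⟨CC, le_max_of_le_left (by norm_num), ?_⟩
  intro f hf n j w hw hwe O hO
  have hfc : Continuous f := hf.1.continuous
  set ε := ‖w‖ with hεdef
  have hε : 0 < ε := norm_pos_iff.mpr hw
  set R := (2:ℝ) ^ j with hR
  have hR0 : 0 < R := zpow_pos two_pos j
  set G : X d → ℝ≥0∞ := fun y => ‖fderiv ℝ f y‖ₑ with hG
  have hGm : Measurable G := ((hf.1.continuous_fderiv one_ne_zero).measurable).enorm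
  set Kset := thickening (16 * R) O with hKset
  set band : ℕ → ℝ → ℝ≥0∞ := fun m lam => ENNReal.ofReal (Cs * ε / (1 / ((m:ℝ) + 1))) *
    ∫⁻ y in Kset, {y | lam < f y ∧ f y < lam + 1 / ((m:ℝ) + 1)}.indicator G y with hband
  have hbandm : ∀ m, Measurable (band m) := fun m =>
    (measurable_band hfc.measurable hGm Kset _).const_mul _
  set δ := CC * R with hδ
  have hRδ : R ≤ δ :=
    le_mul_of_one_le_left hR0.le (le_max_of_le_left (by norm_num : (1:ℝ) ≤ 16))
  set SB : Cls d → ℝ≥0∞ := fun P =>
    ENNReal.ofReal (4 ^ (d + 1) * 2 ^ d * omegaBall d * (ε * rad0 P ^ d / rad0 P)) with hSB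
  set BL : Cls d → Set ℝ := fun P =>
    if (2:ℝ) ^ P.1 < δ ∧ 0 < rad0 P then
      toMeasurable volume (badLevels C n f (cen0 P) (rad0 P)) else ∅ with hBL
  have hBLm : ∀ P, MeasurableSet (BL P) := fun P => by
    simp only [hBL]
    split_ifs
    · exact measurableSet_toMeasurable _ _
    · exact MeasurableSet.empty
  set bad : ℝ → ℝ≥0∞ := fun lam => ∑' P, (BL P).indicator (fun _ => SB P) lam with hbad
  have hpoint : ∀ lam, volume (O ∩ layerSet n j f w lam) ≤
      liminf (fun m => band m lam) atTop + bad lam := by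
    intro lam
    set U := superSet n f lam with hU
    set A : ℕ → Set (X d) := fun m => shellPart n j f (κ / 2) L ε lam (1 / ((m:ℝ) + 1)) O with hA
    set S : Cls d → Set (X d) := fun P =>
      if lam ∈ BL P ∧ 0 < rad0 P ∧ ε ≤ tau' * rad0 P
      then clsShell n f lam (cen0 P) (rad0 P) ε else ∅ with hSdef
    have hsub : O ∩ layerSet n j f w lam ⊆ (⋃ m, A m) ∪ ⋃ P, S P := by
      rintro z ⟨hzO, hzf, hzU, B, hBR, hBj, hB, hzB⟩
      obtain ⟨P, hP1, hP2, hP3, hP4, hP5⟩ :=
        hcov d B.1 B.2 (lt_of_lt_of_le (zpow_pos two_pos _) hBR.1)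
      have hp : 0 < rad0 P := lt_of_lt_of_le (zpow_pos two_pos _) hP1
      have hN : NearRef (cen0 P) (rad0 P) B := ⟨hp, hP2, hP3, hP5⟩
      have hk : -(n:ℤ) ≤ P.1 := by
        have := (zpow_lt_zpow_iff_right₀ (by norm_num : (1:ℝ) < 2)).mp
          (lt_of_le_of_lt hBR.1 hP4)
        omega
      have hr0 : (2:ℝ) ^ (-(n:ℤ)) ≤ rad0 P :=
        le_trans (zpow_le_zpow_right₀ (by norm_num) hk) hP1
      have hεt : ε ≤ tau' * rad0 P := by
        refine hwe.trans ?_
        unfold eps0
        have h1 : (0:ℝ) ≤ tau' := by rw [tau'_val]; norm_num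
        have h2 : (0:ℝ) < (2:ℝ) ^ (-(n:ℤ)) := zpow_pos two_pos _
        have := mul_le_mul_of_nonneg_left hr0 h1
        have := mul_nonneg h1 h2.le
        linarith
      have hzb : z ∈ ball B.1 (B.2 + ε) := by
        rw [mem_ball, dist_eq_norm] at hzB ⊢
        have h1 := norm_sub_le (z + w - B.1) w
        rw [show z + w - B.1 - w = z - B.1 by module] at h1
        linarith
      rcases htb f hfc n lam ε (cen0 P) (rad0 P) B hN hBR hr0 hB hε hεt with hT | hbad'
      · left
        obtain ⟨m, hm⟩ := exists_height hκ hN.r_pos hT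
        exact mem_iUnion.mpr ⟨m, ⟨hzO, hzU⟩, hzf, B, ⟨hBR, hBj, hm⟩, hzb⟩
      · right
        refine mem_iUnion.mpr ⟨P, ?_⟩
        have hPδ : (2:ℝ) ^ P.1 < δ := lt_of_le_of_lt (hP1.trans hP2) (lt_of_lt_of_le hBj hRδ)
        have hlam : lam ∈ BL P := by
          simp only [hBL]
          rw [if_pos ⟨hPδ, hp⟩]
          exact subset_toMeasurable _ _ ⟨⟨B, hN, hBR, hB⟩, hbad'⟩
        simp only [hSdef]
        rw [if_pos ⟨hlam, hp, hεt⟩]
        refine ⟨⟨B, hN, hBR, hB, hzb⟩, fun hW => hzU ?_⟩
        obtain ⟨B', -, hR', hB', hz'⟩ := hW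
        exact ⟨B', hR', hB', hz'⟩
    refine (measure_mono hsub).trans ((measure_union_le _ _).trans (add_le_add ?_ ?_))
    · have hAmono : Monotone A := fun a b hab => shellPart_anti n j f _ _ _ _
        (one_div_le_one_div_of_le (by positivity) (by exact_mod_cast Nat.add_le_add_right hab 1)) O
      rw [hAmono.measure_iUnion]
      have hAband : ∀ m, volume (A m) ≤ band m lam := by
        intro m
        have hpos : (0:ℝ) < 1 / ((m:ℝ) + 1) := by positivity
        refine hshell f hf lam _ ε R hpos hε U O (isOpen_superSet n f lam) hO (X d × ℝ)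
          {B | InRange n B ∧ B.2 < (2:ℝ) ^ j ∧ HasTarget n f lam (κ / 2) L (1 / ((m:ℝ) + 1)) ε B}
          Prod.fst Prod.snd
          (fun B => if h : HasTarget n f lam (κ / 2) L (1 / ((m:ℝ) + 1)) ε B then
            Classical.choose h else ∅) ?_
        rintro B ⟨hBR, hBj, hT⟩
        simp only [dif_pos hT]
        obtain ⟨h1, h2, h3, h4⟩ := Classical.choose_spec hT
        refine ⟨lt_of_lt_of_le (zpow_pos two_pos _) hBR.1, hBj.le, ?_, h1, h2, h3, h4⟩
        refine hwe.trans (le_trans ?_ hBR.1)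
        unfold eps0
        rw [tau'_val]
        linarith [zpow_pos (two_pos (α := ℝ)) (-(n:ℤ))]
      refine iSup_le fun m => ?_
      refine Filter.le_liminf_of_le (by isBoundedDefault) ?_
      filter_upwards [eventually_ge_atTop m] with m' hm'
      exact (measure_mono (hAmono hm')).trans (hAband m')
    · refine (measure_iUnion_le _).trans (ENNReal.tsum_le_tsum fun P => ?_)
      simp only [hSdef]
      split_ifs with h
      · rw [indicator_of_mem h.1]
        exact volume_clsShell n f lam _ h.2.1 hε h.2.2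
      · simp
  have hbandint : ∀ m, ∫⁻ lam, band m lam ≤ ENNReal.ofReal (CC * ε) *
      ∫⁻ x in thickening (CC * R) O, G x := by
    intro m
    have hpos : (0:ℝ) < 1 / ((m:ℝ) + 1) := by positivity
    simp only [hband]
    rw [lintegral_const_mul _ (measurable_band hfc.measurable hGm Kset _),
      lintegral_band f hfc.measurable hGm Kset, ← mul_assoc,
      ← ENNReal.ofReal_mul' hpos.le, div_mul_cancel₀ _ hpos.ne']
    refine mul_le_mul' (ENNReal.ofReal_le_ofReal (mul_le_mul_of_nonneg_right
      (le_max_of_le_right (le_max_left _ _)) hε.le)) (lintegral_mono_set ?_)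
    exact thickening_mono (mul_le_mul_of_nonneg_right (le_max_left _ _) hR0.le) O
  have hbadint : ∫⁻ lam, bad lam ≤ ENNReal.ofReal (CC * ε) * tail f δ := by
    simp only [hbad]
    rw [lintegral_tsum fun P => ((measurable_const.indicator (hBLm P))).aemeasurable]
    refine le_trans (ENNReal.tsum_le_tsum fun P => ?_) (b := ∑' P : Cls d, ENNReal.ofReal (K * ε) *
      if (2:ℝ) ^ P.1 < δ then
        ENNReal.ofReal (rad0 P ^ (d + 1))⁻¹ * pairTriple f (cen0 P) (rad0 P) else 0) ?_
    · rw [lintegral_indicator_const (hBLm P)]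
      simp only [hBL]
      by_cases h : (2:ℝ) ^ P.1 < δ ∧ 0 < rad0 P
      · rw [if_pos h, if_pos h.1, measure_toMeasurable]
        exact class_total hfc hC n (cen0 P) h.2 hε
      · rw [if_neg h, measure_empty, mul_zero]
        exact zero_le
    rw [ENNReal.tsum_mul_left]
    refine (mul_le_mul_right (hclass f hfc δ) _).trans ?_
    rw [← mul_assoc, ← ENNReal.ofReal_mul (by positivity), mul_right_comm]
    exact mul_le_mul_left (ENNReal.ofReal_le_ofReal (mul_le_mul_of_nonneg_right
      (le_max_of_le_right (le_max_right _ _)) hε.le)) _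
  refine (lintegral_mono hpoint).trans ?_
  rw [lintegral_add_left (Measurable.liminf hbandm), mul_add]
  refine add_le_add ?_ hbadint
  refine (lintegral_liminf_le hbandm).trans ?_
  refine Filter.liminf_le_of_frequently_le' ?_
  exact Filter.Frequently.of_forall hbandint

end Vale.Agent.P137
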