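import Vale.Agent.P137.Core.Scale

/-!
The shell and the bad levels of one class.
-/

open MeasureTheory Metric
open scoped ENNReal

noncomputable section

namespace Vale.Agent.P137

variable {d : ℕ}

/-- The union of the balls of a class of average above the level. -/
def clsSet (n : ℕ) (f : X d → ℝ) (lam : ℝ) (c0 : X d) (r0 : ℝ) : Set (X d) :=
  {z | ∃ B, NearRef c0 r0 B ∧ InRange n B ∧ lam < avg f B ∧ z ∈ ball B.1 B.2}

/-- The exterior shell of that union. -/
def clsShell (n : ℕ) (f : X d → ℝ) (lam : ℝ) (c0 : X d) (r0 ε : ℝ) : Set (X d) :=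
  {z | ∃ B, NearRef c0 r0 B ∧ InRange n B ∧ lam < avg f B ∧ z ∈ ball B.1 (B.2 + ε)} \
    clsSet n f lam c0 r0

lemma isOpen_clsSet (n : ℕ) (f : X d → ℝ) (lam : ℝ) (c0 : X d) (r0 : ℝ) :
    IsOpen (clsSet n f lam c0 r0) := by
  have : clsSet n f lam c0 r0 =
      ⋃ B ∈ {B | NearRef c0 r0 B ∧ InRange n B ∧ lam < avg f B}, ball B.1 B.2 := by
    ext z
    simp [clsSet, and_assoc]
  rw [this]
  exact isOpen_biUnion fun B _ => isOpen_ball

/-- Contracting the enlarged ball towards the reference centre. -/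
lemma contract_mem {c0 : X d} {r0 ε : ℝ} {B : X d × ℝ} (h : NearRef c0 r0 B) (hε : 0 < ε)
    {z : X d} (hz : z ∈ ball B.1 (B.2 + ε)) :
    c0 + (1 + 4 * ε / r0)⁻¹ • (z - c0) ∈ ball B.1 B.2 := by
  set t := 1 + 4 * ε / r0 with ht
  have hp := h.pos
  have ht1 : 1 ≤ t := by rw [ht]; linarith [show 0 ≤ 4 * ε / r0 by positivity]
  have htp : 0 < t := by linarith
  rw [mem_ball, dist_eq_norm] at hz ⊢
  have e : c0 + t⁻¹ • (z - c0) - B.1 = t⁻¹ • (z - B.1) + (1 - t⁻¹) • (c0 - B.1) := by module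
  have hti : t⁻¹ ≤ 1 := inv_le_one_of_one_le₀ ht1
  rw [e]
  refine lt_of_le_of_lt (norm_add_le _ _) ?_
  rw [norm_smul, norm_smul, Real.norm_eq_abs, Real.norm_eq_abs, abs_of_pos (inv_pos.mpr htp),
    abs_of_nonneg (by linarith : 0 ≤ 1 - t⁻¹)]
  have h1 : t⁻¹ * ‖z - B.1‖ < t⁻¹ * (B.2 + ε) := mul_lt_mul_of_pos_left hz (inv_pos.mpr htp)
  have hc : ‖c0 - B.1‖ ≤ tau' * r0 := by rw [norm_sub_rev]; exact h.centre
  rw [tau'_val] at hc
  have h2 : (1 - t⁻¹) * ‖c0 - B.1‖ ≤ (1 - t⁻¹) * (r0 / 524288) :=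
    mul_le_mul_of_nonneg_left (by linarith) (by linarith)
  have h3 : ε ≤ (t - 1) * (B.2 - r0 / 524288) := by
    rw [ht, add_sub_cancel_left, div_mul_eq_mul_div, le_div_iff₀ hp]
    have := mul_le_mul_of_nonneg_left
      (by linarith [h.le] : r0 / 2 ≤ B.2 - r0 / 524288) (by positivity : 0 ≤ 4 * ε)
    have : 0 ≤ ε * r0 := by positivity
    linarith
  have h4 : t⁻¹ * ε ≤ t⁻¹ * ((t - 1) * (B.2 - r0 / 524288)) :=
    mul_le_mul_of_nonneg_left h3 (inv_nonneg.mpr htp.le)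
  have h5 : t⁻¹ * ((t - 1) * (B.2 - r0 / 524288)) = (1 - t⁻¹) * (B.2 - r0 / 524288) := by
    field_simp
  linarith

lemma pow_sub_one_le {t : ℝ} (ht1 : 1 ≤ t) (ht2 : t ≤ 2) :
    ∀ k : ℕ, t ^ k - 1 ≤ 4 ^ k * (t - 1)
  | 0 => by simpa using by linarith
  | k + 1 => by
    have ih := pow_sub_one_le ht1 ht2 k
    have h4 : (1:ℝ) ≤ 4 ^ k := one_le_pow₀ (by norm_num)
    have hs : 0 ≤ t - 1 := by linarith
    have h1 : t * (t ^ k - 1) ≤ 2 * (4 ^ k * (t - 1)) :=
      mul_le_mul ht2 ih (sub_nonneg.mpr (one_le_pow₀ ht1)) two_pos.le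
    have h2 : 1 * (t - 1) ≤ 4 ^ k * (t - 1) := mul_le_mul_of_nonneg_right h4 hs
    have h3 : 0 ≤ 4 ^ k * (t - 1) := mul_nonneg (by positivity) hs
    rw [pow_succ, pow_succ]
    linarith

/-- The shell of a class is thin. -/
lemma volume_clsShell (n : ℕ) (f : X d → ℝ) (lam : ℝ) (c0 : X d) {r0 ε : ℝ} (hr : 0 < r0)
    (hε : 0 < ε) (hεt : ε ≤ tau' * r0) :
    volume (clsShell n f lam c0 r0 ε) ≤
      ENNReal.ofReal (4 ^ (d + 1) * 2 ^ d * omegaBall d * (ε * r0 ^ d / r0)) := by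
  set t := 1 + 4 * ε / r0 with ht
  have hs0 : 0 ≤ 4 * ε / r0 := by positivity
  have hs1 : 4 * ε / r0 ≤ 1 := by
    rw [tau'_val] at hεt
    rw [div_le_iff₀ hr]
    linarith
  have htp : 0 < t := by rw [ht]; linarith
  set W := clsSet n f lam c0 r0 with hW
  have hWm : MeasurableSet W := (isOpen_clsSet n f lam c0 r0).measurableSet
  set D := {z : X d | t⁻¹ • z + (c0 - t⁻¹ • c0) ∈ W} with hD
  have hDm : MeasurableSet D :=
    (by fun_prop : Measurable fun z : X d => t⁻¹ • z + (c0 - t⁻¹ • c0)) hWm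
  have hmem : ∀ z : X d, (c0 + t⁻¹ • (z - c0) ∈ W ↔ z ∈ D) := fun z => by
    rw [hD, Set.mem_ofPred_eq,
      show t⁻¹ • z + (c0 - t⁻¹ • c0) = c0 + t⁻¹ • (z - c0) by module]
  have hsub : clsShell n f lam c0 r0 ε ⊆ D \ W := by
    rintro z ⟨⟨B, hN, hR, hB, hz⟩, hzW⟩
    exact ⟨(hmem z).mp ⟨B, hN, hR, hB, contract_mem hN hε hz⟩, hzW⟩
  have hWD : W ⊆ D := by
    rintro z ⟨B, hN, hR, hB, hz⟩
    refine (hmem z).mp ⟨B, hN, hR, hB, contract_mem hN hε ?_⟩
    exact ball_subset_ball (by linarith) hz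
  have hWsub : W ⊆ ball c0 (r0 * (1 + tau)) := by
    rintro z ⟨B, hN, -, -, hz⟩
    exact hN.subset_big hz
  have hWfin : volume W ≠ ⊤ :=
    ((measure_mono hWsub).trans_lt measure_ball_lt_top).ne
  refine (measure_mono hsub).trans ?_
  rw [measure_sdiff hWD hWm.nullMeasurableSet hWfin,
    show volume D = ENNReal.ofReal |((t⁻¹) ^ d)⁻¹| * volume W from
      volume_affine hWm (inv_ne_zero htp.ne') _,
    inv_pow, inv_inv, abs_of_pos (pow_pos htp d), ← ENNReal.ofReal_toReal hWfin,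
    ← ENNReal.ofReal_mul (pow_nonneg htp.le d), ← ENNReal.ofReal_sub _ ENNReal.toReal_nonneg]
  refine ENNReal.ofReal_le_ofReal ?_
  have hw : (volume W).toReal ≤ 2 ^ d * r0 ^ d * omegaBall d := by
    refine (ENNReal.toReal_mono measure_ball_lt_top.ne (measure_mono hWsub)).trans ?_
    rw [vol_ball_real c0 (by rw [tau_val]; positivity), ← mul_pow]
    refine mul_le_mul_of_nonneg_right (pow_le_pow_left₀ (by rw [tau_val]; positivity) ?_ d)
      (omegaBall_pos d).le
    rw [tau_val]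
    linarith
  have ht2 : t ^ d - 1 ≤ 4 ^ d * (4 * ε / r0) := by
    have := pow_sub_one_le (t := t) (by rw [ht]; linarith) (by rw [ht]; linarith) d
    rwa [show t - 1 = 4 * ε / r0 by rw [ht]; ring] at this
  calc t ^ d * (volume W).toReal - (volume W).toReal = (t ^ d - 1) * (volume W).toReal := by ring
    _ ≤ (4 ^ d * (4 * ε / r0)) * (2 ^ d * r0 ^ d * omegaBall d) :=
        mul_le_mul ht2 hw ENNReal.toReal_nonneg (by positivity)
    _ = _ := by rw [pow_succ]; ring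

/-- The levels at which a class is bad. -/
def badLevels (C : ℝ) (n : ℕ) (f : X d → ℝ) (c0 : X d) (r0 : ℝ) : Set ℝ :=
  {lam | (∃ B, NearRef c0 r0 B ∧ InRange n B ∧ lam < avg f B) ∧
    ENNReal.ofReal (mass 1 0 (fun x => f x - lam) (ball c0 (r0 * (1 + tau)))) ≤
      ENNReal.ofReal (C * (r0 ^ d)⁻¹) * pairTriple f c0 r0}

/-- The bad levels of a class form a short set. -/
lemma volume_badLevels {f : X d → ℝ} (hf : Continuous f) {C : ℝ} (hC : 0 < C) (n : ℕ)
    (c0 : X d) {r0 : ℝ} (hr : 0 < r0) :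
    volume (badLevels C n f c0 r0) ≤
      ENNReal.ofReal (C / omegaBall d * ((r0 ^ d)⁻¹ * (r0 ^ d)⁻¹)) * pairTriple f c0 r0 := by
  have hω := omegaBall_pos d
  by_cases hP : pairTriple f c0 r0 = ⊤
  · rw [hP, ENNReal.mul_top]
    · exact le_top
    · simp only [ne_eq, ENNReal.ofReal_eq_zero, not_le]; positivity
  set P := (pairTriple f c0 r0).toReal with hPdef
  have hP0 : 0 ≤ P := ENNReal.toReal_nonneg
  set D := C / omegaBall d * ((r0 ^ d)⁻¹ * (r0 ^ d)⁻¹) * P with hD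
  have key : ∀ a ∈ badLevels C n f c0 r0, ∀ b ∈ badLevels C n f c0 r0, a ≤ b → b - a ≤ D := by
    rintro a ⟨-, ha⟩ b ⟨⟨B, hN, -, hB⟩, -⟩ hab
    rw [← ENNReal.ofReal_toReal hP, ← hPdef, ← ENNReal.ofReal_mul (by positivity),
      ENNReal.ofReal_le_ofReal_iff (by positivity)] at ha
    have hcont : Continuous fun x => f x - a := hf.sub continuous_const
    have hint : IntegrableOn f (ball B.1 B.2) volume :=
      (hf.continuousOn.integrableOn_compact (isCompact_closedBall B.1 B.2)).mono_set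
        ball_subset_closedBall
    set v := (volume (ball B.1 B.2)).toReal with hv
    have hv' : v = B.2 ^ d * omegaBall d := vol_ball_real B.1 hN.r_pos
    have hvp : 0 < v := by rw [hv']; have := hN.r_pos; positivity
    have hI : ∫ x in ball B.1 B.2, (f x - a) = (∫ x in ball B.1 B.2, f x) - a * v := by
      rw [integral_sub hint (integrableOn_const measure_ball_lt_top.ne), setIntegral_const,
        smul_eq_mul, measureReal_def, mul_comm]
    have hIle : ∫ x in ball B.1 B.2, (f x - a) ≤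
        mass 1 0 (fun x => f x - a) (ball c0 (r0 * (1 + tau))) := by
      rw [integral_eq_mass_sub hcont]
      have := mass_mono hcont 1 0 isBounded_ball hN.subset_big
      linarith [mass_nonneg (-1) 0 (fun x => f x - a) (ball B.1 B.2)]
    have hb : b * v < ∫ x in ball B.1 B.2, f x := by
      rw [avg, lt_inv_mul_iff₀ hvp] at hB
      rw [mul_comm]
      exact hB
    have h1 : (b - a) * v ≤ C * (r0 ^ d)⁻¹ * P := by linarith
    have h2 : (b - a) * (r0 ^ d * omegaBall d) ≤ (b - a) * v := by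
      rw [hv']
      exact mul_le_mul_of_nonneg_left
        (mul_le_mul_of_nonneg_right (pow_le_pow_left₀ hr.le hN.le d) hω.le) (by linarith)
    have h3 : D * (r0 ^ d * omegaBall d) = C * (r0 ^ d)⁻¹ * P := by
      rw [hD]; field_simp
    refine le_of_mul_le_mul_right ?_ (by positivity : 0 < r0 ^ d * omegaBall d)
    linarith
  refine (Real.volume_le_diam _).trans ?_
  rw [← ENNReal.ofReal_toReal hP, ← hPdef, ← ENNReal.ofReal_mul (by positivity)]
  refine Metric.ediam_le fun a ha b hb => ?_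
  rw [edist_dist, Real.dist_eq]
  refine ENNReal.ofReal_le_ofReal ?_
  rcases le_total a b with h | h
  · rw [abs_sub_comm, abs_of_nonneg (sub_nonneg.mpr h)]; exact key a ha b hb h
  · rw [abs_of_nonneg (sub_nonneg.mpr h)]; exact key b hb a ha h

/-- The total of the shells of one class over its bad levels. -/
lemma class_total {f : X d → ℝ} (hf : Continuous f) {C : ℝ} (hC : 0 < C) (n : ℕ) (c0 : X d)
    {r0 ε : ℝ} (hr : 0 < r0) (hε : 0 < ε) :
    ENNReal.ofReal (4 ^ (d + 1) * 2 ^ d * omegaBall d * (ε * r0 ^ d / r0)) *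
        volume (badLevels C n f c0 r0) ≤
      ENNReal.ofReal (4 ^ (d + 1) * 2 ^ d * C * ε) *
        (ENNReal.ofReal (r0 ^ (d + 1))⁻¹ * pairTriple f c0 r0) := by
  have hω := omegaBall_pos d
  refine (mul_le_mul_right (volume_badLevels hf hC n c0 hr) _).trans (le_of_eq ?_)
  rw [← mul_assoc, ← mul_assoc (ENNReal.ofReal (4 ^ (d + 1) * 2 ^ d * C * ε)),
    ← ENNReal.ofReal_mul (by positivity), ← ENNReal.ofReal_mul (by positivity)]
  congr 2
  rw [pow_succ r0 d]
  field_simp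

end Vale.Agent.P137
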