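import Vale.Agent.P137.Core.Defs

/-!
The dichotomy at a reference ball.
-/

open MeasureTheory Metric
open scoped ENNReal

noncomputable section

namespace Vale.Agent.P137

variable {d : ℕ}

/-- The affine map of a reference ball. -/
def sc (c0 : X d) (r0 : ℝ) (x : X d) : X d := r0 • x + c0

lemma sc_injective (c0 : X d) {r0 : ℝ} (hr : 0 < r0) : Function.Injective (sc c0 r0) :=
  fun _ _ h => smul_right_injective (X d) hr.ne' (add_right_cancel h)

lemma sc_inv (c0 : X d) {r0 : ℝ} (hr : 0 < r0) (z : X d) : sc c0 r0 (r0⁻¹ • (z - c0)) = z := by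
  rw [sc, smul_smul, mul_inv_cancel₀ hr.ne', one_smul, sub_add_cancel]

lemma dist_sc (c0 : X d) {r0 : ℝ} (hr : 0 < r0) (x y : X d) :
    dist (sc c0 r0 x) (sc c0 r0 y) = r0 * dist x y := by
  rw [sc, sc, dist_add_right, dist_smul₀, Real.norm_eq_abs, abs_of_pos hr]

lemma preimage_ball (c0 : X d) {r0 : ℝ} (hr : 0 < r0) (c : X d) (r : ℝ) :
    sc c0 r0 ⁻¹' ball c r = ball (r0⁻¹ • (c - c0)) (r / r0) := by
  ext x
  conv_lhs => rw [← sc_inv c0 hr c]
  simp only [Set.mem_preimage, mem_ball, dist_sc c0 hr]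
  rw [lt_div_iff₀ hr, mul_comm]

lemma setLIntegral_scale (F : X d → ℝ≥0∞) (c0 : X d) {r0 : ℝ} (hr : 0 < r0) {S : Set (X d)}
    (hS : MeasurableSet S) :
    ∫⁻ x in sc c0 r0 ⁻¹' S, F (sc c0 r0 x) = ENNReal.ofReal (r0 ^ d)⁻¹ * ∫⁻ z in S, F z := by
  have hm : MeasurableSet (sc c0 r0 ⁻¹' S) :=
    (by unfold sc; fun_prop : Measurable (sc c0 r0)) hS
  rw [← lintegral_indicator hm, ← lintegral_indicator hS]
  have := lintegral_affine (S.indicator F) hr.ne' c0
  rw [abs_of_nonneg (by positivity)] at this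
  rw [← this]
  rfl

lemma volume_scale (c0 : X d) {r0 : ℝ} (hr : 0 < r0) {S : Set (X d)} (hS : MeasurableSet S) :
    volume (sc c0 r0 ⁻¹' S) = ENNReal.ofReal (r0 ^ d)⁻¹ * volume S := by
  simpa using setLIntegral_scale (fun _ => 1) c0 hr hS

lemma mass_scale (h : X d → ℝ) (σ : ℝ) (c0 : X d) {r0 : ℝ} (hr : 0 < r0) {S : Set (X d)}
    (hS : MeasurableSet S) :
    mass σ 0 (fun x => h (sc c0 r0 x)) (sc c0 r0 ⁻¹' S) = (r0 ^ d)⁻¹ * mass σ 0 h S := by
  simp only [mass]
  rw [show ∫⁻ x in sc c0 r0 ⁻¹' S, ENNReal.ofReal (prof σ 0 (fun x => h (sc c0 r0 x)) x)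
      = ENNReal.ofReal (r0 ^ d)⁻¹ * ∫⁻ z in S, ENNReal.ofReal (prof σ 0 h z) from
    setLIntegral_scale (fun z => ENNReal.ofReal (prof σ 0 h z)) c0 hr hS,
    ENNReal.toReal_mul, ENNReal.toReal_ofReal (by positivity)]

lemma sc_node (c0 : X d) (r0 : ℝ) (m : ℕ) (y p : X d) :
    sc c0 r0 (node m y p) = node m (sc c0 r0 y) (sc c0 r0 p) := by
  unfold sc node
  module

lemma triple_scale (f : X d → ℝ) (lam : ℝ) (c0 : X d) {r0 : ℝ} (hr : 0 < r0)
    (m : ℕ) :
    ∫⁻ y in ball (0 : X d) 2, ∫⁻ p in ball y 32, ENNReal.ofReal (N3 (f (sc c0 r0 y) - lam)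
        (f (sc c0 r0 (node m y p)) - lam) (f (sc c0 r0 p) - lam)) =
      ENNReal.ofReal (r0 ^ d)⁻¹ * (ENNReal.ofReal (r0 ^ d)⁻¹ *
        ∫⁻ Y in ball c0 (2 * r0), ∫⁻ P in ball Y (32 * r0),
          ENNReal.ofReal (N3 (f Y) (f (node m Y P)) (f P))) := by
  have hN : ∀ a b c : ℝ, N3 (a - lam) (b - lam) (c - lam) = N3 a b c := fun a b c => by
    unfold N3
    simp only [sub_sub_sub_cancel_right]
  simp only [hN, sc_node]
  set Fn := fun Y P : X d => ENNReal.ofReal (N3 (f Y) (f (node m Y P)) (f P)) with hFn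
  have h0 : ball (0 : X d) 2 = sc c0 r0 ⁻¹' ball c0 (2 * r0) := by
    rw [preimage_ball c0 hr, sub_self, smul_zero, mul_div_cancel_right₀ _ hr.ne']
  have h1 : ∀ y : X d, ball y 32 = sc c0 r0 ⁻¹' ball (sc c0 r0 y) (32 * r0) := fun y => by
    rw [preimage_ball c0 hr, mul_div_cancel_right₀ _ hr.ne']
    congr 1
    rw [sc, add_sub_cancel_right, smul_smul, inv_mul_cancel₀ hr.ne', one_smul]
  calc ∫⁻ y in ball (0 : X d) 2, ∫⁻ p in ball y 32, Fn (sc c0 r0 y) (sc c0 r0 p)
      = ∫⁻ y in ball (0 : X d) 2, ENNReal.ofReal (r0 ^ d)⁻¹ *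
          ∫⁻ P in ball (sc c0 r0 y) (32 * r0), Fn (sc c0 r0 y) P := by
        refine lintegral_congr fun y => ?_
        rw [h1 y]
        exact setLIntegral_scale (Fn (sc c0 r0 y)) c0 hr measurableSet_ball
    _ = _ := by
        rw [lintegral_const_mul' _ _ ENNReal.ofReal_ne_top, h0]
        congr 1
        exact setLIntegral_scale (fun Y => ∫⁻ P in ball Y (32 * r0), Fn Y P) c0 hr
          measurableSet_ball

lemma gamma_scale (f : X d → ℝ) (lam : ℝ) (c0 : X d) {r0 : ℝ} (hr : 0 < r0) :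
    gamma (fun x => f (sc c0 r0 x) - lam) =
      ENNReal.ofReal (r0 ^ d)⁻¹ * (ENNReal.ofReal (r0 ^ d)⁻¹ * pairTriple f c0 r0) := by
  rw [gamma, pairTriple, mul_add, mul_add]
  exact congrArg₂ (· + ·) (triple_scale f lam c0 hr mShort) (triple_scale f lam c0 hr mLong)

/-- A ball of the class of the reference ball. -/
structure NearRef (c0 : X d) (r0 : ℝ) (B : X d × ℝ) : Prop where
  pos : 0 < r0
  le : r0 ≤ B.2
  ge : B.2 ≤ r0 * (1 + tau')
  centre : ‖B.1 - c0‖ ≤ tau' * r0

namespace NearRef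

variable {c0 : X d} {r0 : ℝ} {B : X d × ℝ}

lemma r_pos (h : NearRef c0 r0 B) : 0 < B.2 := lt_of_lt_of_le h.pos h.le

lemma scaled_centre (h : NearRef c0 r0 B) : ‖r0⁻¹ • (B.1 - c0)‖ ≤ tau' := by
  rw [norm_smul, Real.norm_eq_abs, abs_inv, abs_of_pos h.pos, ← div_eq_inv_mul,
    div_le_iff₀ h.pos]
  exact h.centre

lemma scaled_radius1 (h : NearRef c0 r0 B) : 1 ≤ B.2 / r0 := by
  rw [le_div_iff₀ h.pos, one_mul]; exact h.le

lemma scaled_radius2 (h : NearRef c0 r0 B) : B.2 / r0 ≤ 1 + tau' := by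
  rw [div_le_iff₀ h.pos, mul_comm]; exact h.ge

lemma subset_big (h : NearRef c0 r0 B) : ball B.1 B.2 ⊆ ball c0 (r0 * (1 + tau)) := by
  refine ball_subset_ball' ?_
  rw [dist_eq_norm]
  have h1 := h.ge
  have h2 := h.centre
  rw [tau'_val] at h1 h2
  rw [tau_val]
  linarith [h.pos]

lemma core_subset (h : NearRef c0 r0 B) : ball c0 (r0 / 2) ⊆ ball B.1 B.2 := by
  refine ball_subset_ball' ?_
  rw [dist_comm, dist_eq_norm]
  have h2 := h.centre
  rw [tau'_val] at h2
  linarith [h.le, h.pos]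

end NearRef

lemma lt_avg_iff {f : X d → ℝ} (hf : Continuous f) (lam : ℝ) (c : X d) {r : ℝ} (hr : 0 < r) :
    lam < avg f (c, r) ↔
      mass (-1) 0 (fun x => f x - lam) (ball c r) < mass 1 0 (fun x => f x - lam) (ball c r) := by
  have hv : 0 < (volume (ball c r)).toReal :=
    ENNReal.toReal_pos (measure_ball_pos volume _ hr).ne' measure_ball_lt_top.ne
  have hint : IntegrableOn f (ball c r) volume :=
    (hf.continuousOn.integrableOn_compact (isCompact_closedBall c r)).mono_set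
      ball_subset_closedBall
  have h := integral_eq_mass_sub (hf.sub continuous_const) (g := fun x => f x - lam) c r
  rw [integral_sub hint (integrableOn_const measure_ball_lt_top.ne), setIntegral_const,
    smul_eq_mul, measureReal_def] at h
  rw [avg, lt_inv_mul_iff₀ hv]
  dsimp only
  constructor <;> intro h' <;> linarith

/-- A target for the ball `B` in the superlevel set. -/
def HasTarget (n : ℕ) (f : X d → ℝ) (lam κ L h : ℝ) (ε : ℝ) (B : X d × ℝ) : Prop :=
  ∃ T : Set (X d), MeasurableSet T ∧ T ⊆ ball B.1 (4 * B.2) ∧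
    ENNReal.ofReal (κ * B.2 ^ d) ≤ volume (T ∩ {p | lam + h < f p}) ∧
    ∀ z ∈ ball B.1 (B.2 + ε) \ superSet n f lam, ∀ p ∈ T, ∀ θ : ℝ, L * ε / B.2 ≤ θ → θ ≤ 1 →
      z + θ • (p - z) ∈ superSet n f lam

lemma ball_subset_superSet {n : ℕ} {f : X d → ℝ} {lam : ℝ} {B : X d × ℝ} (hR : InRange n B)
    (h : lam < avg f B) : ball B.1 B.2 ⊆ superSet n f lam :=
  fun _ hz => ⟨B, hR, h, hz⟩

/-- A ball with a rich superlevel part is its own target. -/
lemma hasTarget_dense {f : X d → ℝ} (hf : Continuous f) {η : ℝ} {n : ℕ} {lam ε : ℝ}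
    {c0 : X d} {r0 : ℝ} {B : X d × ℝ} (hN : NearRef c0 r0 B) (hR : InRange n B)
    (hB : lam < avg f B) {ρ : ℝ} (hρ0 : 0 < ρ) (hρ1 : ρ < 1)
    (hρ : 2 ^ d * omegaBall d * (1 - ρ ^ d) ≤ η / 2) (hε : 0 < ε)
    (hdense : η * r0 ^ d < (volume (ball B.1 B.2 ∩ {x | lam < f x})).toReal) :
    HasTarget n f lam (η / 2 ^ (d + 1)) (2 / (1 - ρ)) 0 ε B := by
  have hr := hN.r_pos
  have hsub : ball B.1 (ρ * B.2) ⊆ ball B.1 B.2 :=
    ball_subset_ball (mul_le_of_le_one_left hr.le hρ1.le)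
  refine ⟨ball B.1 (ρ * B.2), measurableSet_ball,
    hsub.trans (ball_subset_ball (by linarith)), ?_, ?_⟩
  · set E := {x | lam < f x} with hE
    have hEm : MeasurableSet E := measurableSet_lt measurable_const hf.measurable
    simp only [add_zero]
    rw [← ENNReal.ofReal_toReal (a := volume (ball B.1 (ρ * B.2) ∩ E))
      (isBounded_ball.subset Set.inter_subset_left).measure_lt_top.ne]
    refine ENNReal.ofReal_le_ofReal ?_
    have hη0 : 0 ≤ η := by
      have : ρ ^ d ≤ 1 := pow_le_one₀ hρ0.le hρ1.le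
      have := mul_nonneg (mul_nonneg (pow_nonneg (by norm_num : (0:ℝ) ≤ 2) d)
        (omegaBall_pos d).le) (by linarith : 0 ≤ 1 - ρ ^ d)
      linarith
    have hsplit : (volume (ball B.1 B.2 ∩ E)).toReal ≤ (volume (ball B.1 (ρ * B.2) ∩ E)).toReal +
        ((volume (ball B.1 B.2)).toReal - (volume (ball B.1 (ρ * B.2))).toReal) := by
      have h1 : volume (ball B.1 B.2 ∩ E) ≤
          volume (ball B.1 (ρ * B.2) ∩ E) + volume (ball B.1 B.2 \ ball B.1 (ρ * B.2)) := by
        refine (measure_mono ?_).trans (measure_union_le _ _)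
        intro x hx
        by_cases h : x ∈ ball B.1 (ρ * B.2)
        · exact Or.inl ⟨h, hx.2⟩
        · exact Or.inr ⟨hx.1, h⟩
      have fa := (isBounded_ball.subset (Set.inter_subset_left (s := ball B.1 (ρ * B.2))
        (t := E))).measure_lt_top (μ := volume)
      have fb := (isBounded_ball.subset (Set.sdiff_subset (s := ball B.1 B.2)
        (t := ball B.1 (ρ * B.2)))).measure_lt_top (μ := volume)
      have h2 := ENNReal.toReal_mono (ENNReal.add_ne_top.mpr ⟨fa.ne, fb.ne⟩) h1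
      rw [ENNReal.toReal_add fa.ne fb.ne] at h2
      rwa [measure_sdiff hsub measurableSet_ball.nullMeasurableSet measure_ball_lt_top.ne,
        ENNReal.toReal_sub_of_le (measure_mono hsub) measure_ball_lt_top.ne] at h2
    rw [vol_ball_real B.1 hr, vol_ball_real B.1 (mul_pos hρ0 hr), mul_pow] at hsplit
    have hr2 : B.2 ^ d ≤ 2 ^ d * r0 ^ d := by
      rw [← mul_pow]
      refine pow_le_pow_left₀ hr.le ?_ d
      have := hN.ge
      rw [tau'_val] at this
      linarith [hN.pos]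
    have h1 : B.2 ^ d * omegaBall d - ρ ^ d * B.2 ^ d * omegaBall d ≤ η / 2 * r0 ^ d := by
      have e1 : B.2 ^ d * omegaBall d - ρ ^ d * B.2 ^ d * omegaBall d
          = B.2 ^ d * (omegaBall d * (1 - ρ ^ d)) := by ring
      rw [e1]
      have : ρ ^ d ≤ 1 := pow_le_one₀ hρ0.le hρ1.le
      refine (mul_le_mul_of_nonneg_right hr2
        (mul_nonneg (omegaBall_pos d).le (by linarith))).trans ?_
      have := mul_le_mul_of_nonneg_right hρ (pow_nonneg hN.pos.le d)
      linarith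
    have h2 : η / 2 ^ (d + 1) * B.2 ^ d ≤ η / 2 * r0 ^ d := by
      refine (mul_le_mul_of_nonneg_left hr2 (by positivity)).trans (le_of_eq ?_)
      rw [pow_succ]
      field_simp
    linarith
  · intro z hz p hp θ hθ hθ1
    refine ball_subset_superSet hR hB ?_
    rw [mem_ball, dist_eq_norm]
    have h1 : z + θ • (p - z) - B.1 = (1 - θ) • (z - B.1) + θ • (p - B.1) := by module
    have hL : 0 < 2 / (1 - ρ) := div_pos two_pos (by linarith)
    have hθ0 : 0 ≤ θ := le_trans (by positivity) hθ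
    rw [h1]
    refine lt_of_le_of_lt (norm_add_le _ _) ?_
    rw [norm_smul, norm_smul, Real.norm_eq_abs, Real.norm_eq_abs, abs_of_nonneg hθ0,
      abs_of_nonneg (by linarith : 0 ≤ 1 - θ)]
    have h2 : (1 - θ) * ‖z - B.1‖ ≤ (1 - θ) * (B.2 + ε) := by
      refine mul_le_mul_of_nonneg_left ?_ (by linarith)
      have := mem_ball.mp hz.1
      rw [dist_eq_norm] at this
      exact this.le
    have h3 : θ * ‖p - B.1‖ ≤ θ * (ρ * B.2) := by
      refine mul_le_mul_of_nonneg_left ?_ hθ0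
      have := mem_ball.mp hp
      rw [dist_eq_norm] at this
      exact this.le
    have h4 : 2 * ε ≤ θ * ((1 - ρ) * B.2) := by
      rw [div_mul_eq_mul_div, div_div, div_le_iff₀ (mul_pos (by linarith) hr)] at hθ
      linarith
    linarith [mul_nonneg hθ0 hε.le]

/-- Either the ball has a target or its class is bad at this level. -/
theorem target_or_bad (hd : 1 ≤ d) : ∃ κ L C : ℝ, 0 < κ ∧ 0 < L ∧ 0 < C ∧
    ∀ f : X d → ℝ, Continuous f → ∀ (n : ℕ) (lam ε : ℝ) (c0 : X d) (r0 : ℝ) (B : X d × ℝ),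
      NearRef c0 r0 B → InRange n B → (2:ℝ) ^ (-(n:ℤ)) ≤ r0 → lam < avg f B → 0 < ε →
      ε ≤ tau' * r0 →
      HasTarget n f lam κ L 0 ε B ∨
        ENNReal.ofReal (mass 1 0 (fun x => f x - lam) (ball c0 (r0 * (1 + tau)))) ≤
          ENNReal.ofReal (C * (r0 ^ d)⁻¹) * pairTriple f c0 r0 := by
  obtain ⟨η, κ, C, hη, hκ, hC, hdich⟩ := dichotomy hd
  have hω := omegaBall_pos d
  have hev : ∀ᶠ ρ : ℝ in nhdsWithin 1 (Set.Iio 1),
      2 ^ d * omegaBall d * (1 - ρ ^ d) < η / 2 := by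
    refine Filter.Tendsto.eventually_lt_const (v := 0) (by linarith) ?_
    have hc : Continuous fun ρ : ℝ => 2 ^ d * omegaBall d * (1 - ρ ^ d) := by fun_prop
    simpa using (hc.tendsto 1).mono_left nhdsWithin_le_nhds
  obtain ⟨ρ, hρ, hρ1, hρ0⟩ := (hev.and ((eventually_nhdsWithin_of_forall fun ρ hρ => hρ).and
    (mem_nhdsWithin_of_mem_nhds (Ioi_mem_nhds one_pos)))).exists
  refine ⟨min (η / 2 ^ (d + 1)) (κ / 2 ^ d), max (2 / (1 - ρ)) (2 * Lseg), C, by positivity,
    lt_max_of_lt_right (by norm_num [Lseg]), hC, ?_⟩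
  intro f hf n lam ε c0 r0 B hN hR hr0 hB hε hεt
  have hp := hN.pos
  have hr := hN.r_pos
  have weaken : ∀ κ' L', min (η / 2 ^ (d + 1)) (κ / 2 ^ d) ≤ κ' →
      L' ≤ max (2 / (1 - ρ)) (2 * Lseg) → HasTarget n f lam κ' L' 0 ε B →
      HasTarget n f lam (min (η / 2 ^ (d + 1)) (κ / 2 ^ d)) (max (2 / (1 - ρ)) (2 * Lseg)) 0 ε B := by
    rintro κ' L' hκ' hL' ⟨T, hTm, hTs, hTv, hTseg⟩
    refine ⟨T, hTm, hTs, le_trans (ENNReal.ofReal_le_ofReal ?_) hTv, fun z hz p hp θ hθ hθ1 =>
      hTseg z hz p hp θ (le_trans ?_ hθ) hθ1⟩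
    · exact mul_le_mul_of_nonneg_right hκ' (pow_nonneg hr.le d)
    · exact div_le_div_of_nonneg_right (mul_le_mul_of_nonneg_right hL' hε.le) hr.le
  by_cases hdense : η * r0 ^ d < (volume (ball B.1 B.2 ∩ {x | lam < f x})).toReal
  · exact Or.inl (weaken _ _ (min_le_left _ _) (le_max_left _ _)
      (hasTarget_dense hf hN hR hB hρ0 hρ1 hρ.le hε hdense))
  push Not at hdense
  set g : X d → ℝ := fun x => f (sc c0 r0 x) - lam with hg
  have hgc : Continuous g := by unfold g sc; fun_prop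
  have hEm : MeasurableSet {x | lam < f x} := measurableSet_lt measurable_const hf.measurable
  have hpre := preimage_ball c0 hp B.1 B.2
  have hpos : 0 < ∫ x in ball (r0⁻¹ • (B.1 - c0)) (B.2 / r0), g x := by
    rw [integral_eq_mass_sub hgc, ← hpre, sub_pos,
      mass_scale (fun x => f x - lam) _ c0 hp measurableSet_ball,
      mass_scale (fun x => f x - lam) _ c0 hp measurableSet_ball]
    exact mul_lt_mul_of_pos_left ((lt_avg_iff hf lam B.1 hr).mp hB) (by positivity)
  have hsmall : (volume (ball (r0⁻¹ • (B.1 - c0)) (B.2 / r0) ∩ {x | 0 < g x})).toReal ≤ η := by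
    have e : ball (r0⁻¹ • (B.1 - c0)) (B.2 / r0) ∩ {x | 0 < g x}
        = sc c0 r0 ⁻¹' (ball B.1 B.2 ∩ {x | lam < f x}) := by
      rw [Set.preimage_inter, hpre]
      ext x
      simp [hg]
    rw [e, volume_scale c0 hp (measurableSet_ball.inter hEm), ENNReal.toReal_mul,
      ENNReal.toReal_ofReal (by positivity), inv_mul_le_iff₀ (by positivity), mul_comm]
    exact hdense
  rcases hdich g hgc _ _ hN.scaled_centre hN.scaled_radius1 hN.scaled_radius2 hpos hsmall with
    hbad | ⟨c', T, hc', hwin, hTm, hTs, hTv, hTseg⟩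
  · right
    have e1 : bigMass g = (r0 ^ d)⁻¹ *
        mass 1 0 (fun x => f x - lam) (ball c0 (r0 * (1 + tau))) := by
      rw [← mass_scale (fun x => f x - lam) _ c0 hp measurableSet_ball, preimage_ball c0 hp,
        sub_self, smul_zero, mul_div_cancel_left₀ _ hp.ne']
      rfl
    rw [e1, show gamma g = _ from gamma_scale f lam c0 hp, ENNReal.ofReal_mul (by positivity),
      ← mul_assoc, mul_comm (ENNReal.ofReal C), mul_assoc] at hbad
    have h0 : ENNReal.ofReal (r0 ^ d)⁻¹ ≠ 0 := by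
      simp only [ne_eq, ENNReal.ofReal_eq_zero, not_le]; positivity
    rw [ENNReal.ofReal_mul hC.le, mul_assoc]
    exact (ENNReal.mul_le_mul_iff_right h0 ENNReal.ofReal_ne_top).mp hbad
  · left
    refine weaken (κ / 2 ^ d) (2 * Lseg) (min_le_right _ _) (le_max_right _ _) ?_
    set c1 := sc c0 r0 c' with hc1
    have hR' : InRange n (c1, r0) := ⟨hr0, lt_of_le_of_lt hN.le hR.2⟩
    have hpre' : sc c0 r0 ⁻¹' ball c1 r0 = ball c' 1 := by
      rw [preimage_ball c0 hp, div_self hp.ne', hc1, sc, add_sub_cancel_right, smul_smul,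
        inv_mul_cancel₀ hp.ne', one_smul]
    have hB1 : lam < avg f (c1, r0) := by
      rw [lt_avg_iff hf lam c1 hp]
      rw [integral_eq_mass_sub hgc, ← hpre', sub_pos,
        mass_scale (fun x => f x - lam) _ c0 hp measurableSet_ball,
        mass_scale (fun x => f x - lam) _ c0 hp measurableSet_ball] at hwin
      exact lt_of_mul_lt_mul_left hwin (by positivity)
    set T' : Set (X d) := (fun z => r0⁻¹ • (z - c0)) ⁻¹' T with hT'
    have hT'm : MeasurableSet T' :=
      (by fun_prop : Measurable fun z : X d => r0⁻¹ • (z - c0)) hTm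
    refine ⟨T', hT'm, ?_, ?_, ?_⟩
    · intro z hz
      have h1 := mem_ball.mp (hTs hz)
      rw [dist_eq_norm] at h1
      have hn : ‖r0⁻¹ • (z - c0)‖ < 17 / 16 := by
        have := norm_le_norm_add_norm_sub' (r0⁻¹ • (z - c0)) c'
        linarith [norm_sub_rev c' (r0⁻¹ • (z - c0))]
      rw [norm_smul, Real.norm_eq_abs, abs_inv, abs_of_pos hp, ← div_eq_inv_mul,
        div_lt_iff₀ hp] at hn
      rw [mem_ball, dist_eq_norm]
      have h3 := norm_sub_le_norm_sub_add_norm_sub z c0 B.1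
      have h4 := hN.centre
      rw [tau'_val] at h4
      linarith [norm_sub_rev c0 B.1, hN.le]
    · simp only [add_zero]
      have e : sc c0 r0 ⁻¹' (T' ∩ {p | lam < f p}) = T ∩ {x | 0 < g x} := by
        ext x
        simp [hT', hg, sc, smul_smul, inv_mul_cancel₀ hp.ne']
      have hv := volume_scale c0 hp (hT'm.inter hEm)
      rw [e] at hv
      rw [hv, ENNReal.toReal_mul, ENNReal.toReal_ofReal (by positivity),
        le_inv_mul_iff₀ (by positivity)] at hTv
      refine le_trans (ENNReal.ofReal_le_ofReal ?_) ENNReal.ofReal_toReal_le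
      refine le_trans ?_ hTv
      have hr2 : B.2 ^ d ≤ 2 ^ d * r0 ^ d := by
        rw [← mul_pow]
        refine pow_le_pow_left₀ hr.le ?_ d
        have := hN.ge
        rw [tau'_val] at this
        linarith
      rw [mul_comm (r0 ^ d), div_mul_eq_mul_div, div_le_iff₀ (by positivity)]
      linarith [mul_le_mul_of_nonneg_left hr2 hκ.le]
    · intro z hz p hp' θ hθ hθ1
      set z' := r0⁻¹ • (z - c0) with hz'
      set p' := r0⁻¹ • (p - c0) with hp''
      have ez : sc c0 r0 z' = z := sc_inv c0 hp z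
      have ep : sc c0 r0 p' = p := sc_inv c0 hp p
      have hzb : z' ∈ ball (r0⁻¹ • (B.1 - c0)) (B.2 / r0 + ε / r0) := by
        rw [← add_div, ← preimage_ball c0 hp, Set.mem_preimage, ez]
        exact hz.1
      have hzo : z' ∉ ball (r0⁻¹ • (B.1 - c0)) (B.2 / r0) ∪ ball c' 1 := by
        rw [← hpre, ← hpre', ← Set.preimage_union, Set.mem_preimage, ez]
        rintro (h | h)
        · exact hz.2 (ball_subset_superSet hR hB h)
        · exact hz.2 (ball_subset_superSet hR' hB1 h)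
      have hθ' : Lseg * (ε / r0) ≤ θ := by
        refine le_trans ?_ hθ
        have hge : B.2 ≤ 2 * r0 := by
          have := hN.ge
          rw [tau'_val] at this
          linarith
        rw [mul_div_assoc', div_le_div_iff₀ hp hr]
        have := mul_le_mul_of_nonneg_left hge (mul_nonneg (by norm_num [Lseg] : 0 ≤ Lseg) hε.le)
        linarith
      have h := hTseg (r0⁻¹ • (B.1 - c0)) (B.2 / r0) (ε / r0) hN.scaled_centre hN.scaled_radius1
        hN.scaled_radius2 (by positivity) (by rw [div_le_iff₀ hp]; exact hεt) z' ⟨hzb, hzo⟩ p' hp'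
        θ hθ' hθ1
      rw [← hpre, ← hpre', ← Set.preimage_union, Set.mem_preimage] at h
      have e : sc c0 r0 (z' + θ • (p' - z')) = z + θ • (p - z) := by
        rw [← ez, ← ep]
        unfold sc
        module
      rw [e] at h
      rcases h with h | h
      · exact ball_subset_superSet hR hB h
      · exact ball_subset_superSet hR' hB1 h

end Vale.Agent.P137
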